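import Mathlib
import Vale.Agent.Lib.Common.PolyTime.Typed4
import Vale.Agent.Lib.Common.PolyTime.FoldTools

/-!
P337, complexity side: the typed counting hierarchy, counting bit strings.
-/

namespace Vale.Agent.P337

open Vale.Agent.Lib.Common.PolyTime

/-- number of bit strings of length `n` with a property -/
noncomputable def cnt (n : ℕ) (P : List Bool → Prop) : ℕ :=
  Nat.card {y : List Bool // y.length = n ∧ P y}

/-- level `j` of the counting hierarchy, for predicates on encoded types (operator form) -/
def InC : ℕ → ∀ {α : Type} [TEnc α], (α → Prop) → Prop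
  | 0, _, _, A => ∃ f, PT f ∧ ∀ a, (A a ↔ f a = true)
  | j + 1, α, _, A => ∃ (l : α → ℕ) (B : α × List Bool → Prop), PT l ∧ InC j B ∧
      ∀ a, (A a ↔ 2 ^ l a < 2 * cnt (l a) (fun y => B (a, y)))

/-- predicates in the counting hierarchy -/
def CHp {α : Type} [TEnc α] (A : α → Prop) : Prop := ∃ j, InC j A

theorem cnt_congr {n : ℕ} {P Q : List Bool → Prop} (h : ∀ y, y.length = n → (P y ↔ Q y)) :
    cnt n P = cnt n Q := by
  unfold cnt
  apply Nat.card_congr
  apply Equiv.subtypeEquivRight
  intro y
  constructor
  · rintro ⟨h1, h2⟩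
    exact ⟨h1, (h y h1).mp h2⟩
  · rintro ⟨h1, h2⟩
    exact ⟨h1, (h y h1).mpr h2⟩

theorem cnt_zero (P : List Bool → Prop) [Decidable (P [])] : cnt 0 P = if P [] then 1 else 0 := by
  unfold cnt
  split_ifs with h
  · rw [Nat.card_eq_one_iff_exists]
    refine ⟨⟨[], rfl, h⟩, ?_⟩
    rintro ⟨y, hy, hP⟩
    exact Subtype.ext (List.length_eq_zero_iff.mp hy)
  · rw [Nat.card_eq_zero]
    left
    constructor
    rintro ⟨y, hy, hP⟩
    rw [List.length_eq_zero_iff.mp hy] at hP
    exact h hP

theorem cnt_finite (n : ℕ) (P : List Bool → Prop) :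
    Finite {y : List Bool // y.length = n ∧ P y} :=
  Set.Finite.to_subtype (s := {y : List Bool | y.length = n ∧ P y})
    ((List.finite_length_eq Bool n).subset fun _ hy => hy.1)

/-- splitting off the first bit -/
def cntEquiv (n : ℕ) (P : List Bool → Prop) :
    {y : List Bool // y.length = n ∧ P (true :: y)} ⊕
      {y : List Bool // y.length = n ∧ P (false :: y)} ≃
    {y : List Bool // y.length = n + 1 ∧ P y} where
  toFun := fun x => match x with
    | Sum.inl y => ⟨true :: y.1, by rw [List.length_cons, y.2.1], y.2.2⟩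
    | Sum.inr y => ⟨false :: y.1, by rw [List.length_cons, y.2.1], y.2.2⟩
  invFun := fun x => match x with
    | ⟨[], h⟩ => absurd h.1 (by simp)
    | ⟨true :: y, h⟩ => Sum.inl ⟨y, by simpa using h.1, h.2⟩
    | ⟨false :: y, h⟩ => Sum.inr ⟨y, by simpa using h.1, h.2⟩
  left_inv := by
    rintro (⟨y, hy⟩ | ⟨y, hy⟩) <;> rfl
  right_inv := by
    rintro ⟨y, hy⟩
    match y, hy with
    | [], h => exact absurd h.1 (by simp)
    | true :: y, h => rfl
    | false :: y, h => rfl

theorem cnt_succ (n : ℕ) (P : List Bool → Prop) :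
    cnt (n + 1) P = cnt n (fun y => P (true :: y)) + cnt n (fun y => P (false :: y)) := by
  unfold cnt
  have := cnt_finite n (fun y => P (true :: y))
  have := cnt_finite n (fun y => P (false :: y))
  rw [← Nat.card_sum]
  exact (Nat.card_congr (cntEquiv n P)).symm

theorem cnt_true (n : ℕ) : cnt n (fun _ => True) = 2 ^ n := by
  induction n with
  | zero => rw [cnt_zero, if_pos trivial, pow_zero]
  | succ n ih => rw [cnt_succ, ih, pow_succ]; ring

theorem cnt_add_not (n : ℕ) (P : List Bool → Prop) : cnt n P + cnt n (fun y => ¬ P y) = 2 ^ n := by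
  classical
  induction n generalizing P with
  | zero =>
    rw [cnt_zero, cnt_zero]
    by_cases h : P []
    · simp [h]
    · simp [h]
  | succ n ih =>
    rw [cnt_succ, cnt_succ, pow_succ]
    have h1 := ih (fun y => P (true :: y))
    have h2 := ih (fun y => P (false :: y))
    omega

theorem cnt_false (n : ℕ) : cnt n (fun _ => False) = 0 := by
  have h1 := cnt_add_not n (fun _ => True)
  have h2 := cnt_true n
  simp only [not_true_eq_false] at h1
  omega

/-- counting strings whose first `n` bits satisfy `P` -/
theorem cnt_take (n m : ℕ) (P : List Bool → Prop) :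
    cnt (n + m) (fun y => P (y.take n)) = 2 ^ m * cnt n P := by
  classical
  induction n generalizing P with
  | zero =>
    rw [zero_add, cnt_zero]
    simp only [List.take_zero]
    by_cases h : P []
    · simp only [h, if_true, mul_one]
      exact cnt_true m
    · simp only [h, if_false, mul_zero]
      exact cnt_false m
  | succ n ih =>
    have h : n + 1 + m = n + m + 1 := by omega
    rw [h, cnt_succ, cnt_succ, mul_add]
    simp only [List.take_succ_cons]
    rw [ih (fun y => P (true :: y)), ih (fun y => P (false :: y))]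

/-- the strings with prescribed content -/
theorem cnt_eq_singleton (n : ℕ) (z : List Bool) (hz : z.length = n) :
    cnt n (fun y => y = z) = 1 := by
  unfold cnt
  rw [Nat.card_eq_one_iff_exists]
  refine ⟨⟨z, hz, rfl⟩, ?_⟩
  rintro ⟨y, hy, hP⟩
  exact Subtype.ext hP

end Vale.Agent.P337
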