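import Mathlib
import Vale.Agent.Lib.P337.Cx.Class

/-!
P337, complexity side: closure properties of the typed levels.
-/

namespace Vale.Agent.P337

open Vale.Agent.Lib.Common.PolyTime

variable {α β : Type} [TEnc α] [TEnc β]

theorem InC_zero_iff {A : α → Prop} : InC 0 A ↔ ∃ f, PT f ∧ ∀ a, (A a ↔ f a = true) := Iff.rfl

theorem InC_succ_iff {j : ℕ} {A : α → Prop} : InC (j + 1) A ↔
    ∃ (l : α → ℕ) (B : α × List Bool → Prop), PT l ∧ InC j B ∧
      ∀ a, (A a ↔ 2 ^ l a < 2 * cnt (l a) (fun y => B (a, y))) := Iff.rfl

theorem InC.congr {j : ℕ} {A B : α → Prop} (hA : InC j A) (h : ∀ a, A a ↔ B a) : InC j B := by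
  have : A = B := funext fun a => propext (h a)
  rwa [← this]

theorem InC_pre_aux (j : ℕ) : ∀ {α β : Type} [TEnc α] [TEnc β] {A : α → Prop} (_ : InC j A)
    {f : β → α} (_ : PT f), InC j (fun b => A (f b)) := by
  induction j with
  | zero =>
    intro α β _ _ A hA f hf
    obtain ⟨g, hg, h⟩ := hA
    exact ⟨fun b => g (f b), PT.comp hg hf, fun b => h (f b)⟩
  | succ j ih =>
    intro α β _ _ A hA f hf
    obtain ⟨l, B, hl, hB, h⟩ := hA
    refine ⟨fun b => l (f b), fun p => B (f p.1, p.2), PT.comp hl hf, ?_, fun b => h (f b)⟩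
    exact ih hB (f := fun p : β × List Bool => (f p.1, p.2))
      (PT.pair (PT.comp hf (PT.fst PT.id)) (PT.snd PT.id))

theorem InC.pre {j : ℕ} {A : α → Prop} (hA : InC j A) {f : β → α} (hf : PT f) :
    InC j (fun b => A (f b)) := InC_pre_aux j hA hf

theorem InC_ite_aux (j : ℕ) : ∀ {α : Type} [TEnc α] {A B : α → Prop} (_ : InC j A) (_ : InC j B)
    {c : α → Bool} (_ : PT c), InC j (fun a => if c a = true then A a else B a) := by
  induction j with
  | zero =>
    intro α _ A B hA hB c hc
    obtain ⟨f, hf, h1⟩ := hA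
    obtain ⟨g, hg, h2⟩ := hB
    refine ⟨fun a => bif c a then f a else g a, PT.bif hc hf hg, fun a => ?_⟩
    cases hca : c a
    · simp [hca, h2]
    · simp [hca, h1]
  | succ j ih =>
    intro α _ A B hA hB c hc
    obtain ⟨l1, B1, hl1, hB1, h1⟩ := hA
    obtain ⟨l2, B2, hl2, hB2, h2⟩ := hB
    refine ⟨fun a => bif c a then l1 a else l2 a,
      fun p => if c p.1 = true then B1 p else B2 p, PT.bif hc hl1 hl2,
      ih hB1 hB2 (c := fun p : α × List Bool => c p.1) (PT.comp hc (PT.fst PT.id)), fun a => ?_⟩
    cases hca : c a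
    · simp only [hca, cond_false, Bool.false_eq_true, if_false]
      exact h2 a
    · simp only [hca, cond_true, if_true]
      exact h1 a

theorem InC.ite {j : ℕ} {A B : α → Prop} (hA : InC j A) (hB : InC j B) {c : α → Bool} (hc : PT c) :
    InC j (fun a => if c a = true then A a else B a) := InC_ite_aux j hA hB hc

theorem InC_succ_aux {j : ℕ} {A : α → Prop} (hA : InC j A) : InC (j + 1) A := by
  classical
  refine ⟨fun _ => 0, fun p => A p.1, PT.const _, hA.pre (PT.fst PT.id), fun a => ?_⟩
  rw [cnt_zero]
  by_cases h : A a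
  · simp [h]
  · simp [h]

theorem InC.const (j : ℕ) (P : Prop) : InC j (fun _ : α => P) := by
  classical
  induction j with
  | zero => exact ⟨fun _ => decide P, PT.const _, fun a => by simp⟩
  | succ j ih => exact InC_succ_aux ih

theorem InC.succ {j : ℕ} {A : α → Prop} (hA : InC j A) : InC (j + 1) A := InC_succ_aux hA

theorem InC.mono {j k : ℕ} {A : α → Prop} (hA : InC j A) (h : j ≤ k) : InC k A := by
  induction h with
  | refl => exact hA
  | step _ ih => exact ih.succ

theorem InC_not_cnt (n : ℕ) (P : List Bool → Prop) :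
    cnt (n + 2) (fun y => if (!(y.getD 0 false)) = true then ¬ P (y.drop 2)
      else (decide (y.getD 1 false = false) || decide (y.drop 2 = List.replicate n false)) = true)
      = 2 * cnt n (fun y => ¬ P y) + 2 ^ n + 1 := by
  rw [show n + 2 = (n + 1) + 1 from rfl, cnt_succ, cnt_succ, cnt_succ]
  have h1 : cnt n (fun y => if (!((true :: true :: y).getD 0 false)) = true then
      ¬ P ((true :: true :: y).drop 2) else (decide ((true :: true :: y).getD 1 false = false) ||
        decide ((true :: true :: y).drop 2 = List.replicate n false)) = true) = 1 := by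
    refine Eq.trans (cnt_congr (fun y _ => ?_))
      (cnt_eq_singleton n (List.replicate n false) (by simp))
    simp
  have h2 : cnt n (fun y => if (!((true :: false :: y).getD 0 false)) = true then
      ¬ P ((true :: false :: y).drop 2) else (decide ((true :: false :: y).getD 1 false = false) ||
        decide ((true :: false :: y).drop 2 = List.replicate n false)) = true) = 2 ^ n := by
    rw [← cnt_true n]
    apply cnt_congr
    intro y _
    simp
  have h3 : ∀ b : Bool, cnt n (fun y => if (!((false :: b :: y).getD 0 false)) = true then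
      ¬ P ((false :: b :: y).drop 2) else (decide ((false :: b :: y).getD 1 false = false) ||
        decide ((false :: b :: y).drop 2 = List.replicate n false)) = true) =
      cnt n (fun y => ¬ P y) := by
    intro b
    apply cnt_congr
    intro y _
    simp
  rw [h1, h2, h3 true, h3 false]
  ring

theorem InC_not_aux (j : ℕ) : ∀ {α : Type} [TEnc α] {A : α → Prop} (_ : InC j A),
    InC j (fun a => ¬ A a) := by
  induction j with
  | zero =>
    intro α _ A hA
    obtain ⟨f, hf, h⟩ := hA
    refine ⟨fun a => !(f a), PT.not hf, fun a => ?_⟩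
    show ¬ A a ↔ (!(f a)) = true
    rw [h a]
    cases f a <;> simp
  | succ j ih =>
    intro α _ A hA
    obtain ⟨l, B, hl, hB, h⟩ := hA
    refine ⟨fun a => l a + 2, fun p => if (!(p.2.getD 0 false)) = true then
      ¬ B (p.1, p.2.drop 2) else (decide (p.2.getD 1 false = false) ||
        decide (p.2.drop 2 = List.replicate (l p.1) false)) = true, ?_, ?_, ?_⟩
    · exact PT.succ (PT.succ hl)
    · refine InC.ite ((ih hB).pre (f := fun p : α × List Bool => (p.1, p.2.drop 2)) ?_) ?_ ?_
      · exact PT.pair (PT.fst PT.id) (PT.drop (PT.snd PT.id) (PT.const _))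
      · refine InC.mono (j := 0) ?_ (Nat.zero_le j)
        refine ⟨fun p : α × List Bool => (decide (p.2.getD 1 false = false) ||
          decide (p.2.drop 2 = List.replicate (l p.1) false)), ?_, fun p => Iff.rfl⟩
        refine PT.or (PT.decide_eq ?_ (PT.const _)) (PT.decide_eq ?_ ?_)
        · exact PT.getD (PT.snd PT.id) (PT.const _) (PT.const _)
        · exact PT.drop (PT.snd PT.id) (PT.const _)
        · exact PT.replicate (PT.comp hl (PT.fst PT.id)) (PT.const _)
      · exact PT.not (PT.getD (PT.snd PT.id) (PT.const _) (PT.const _))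
    · intro a
      show ¬ A a ↔ _
      rw [h a]
      have h1 := InC_not_cnt (l a) (fun y => B (a, y))
      have h2 := cnt_add_not (l a) (fun y => B (a, y))
      simp only at h1 ⊢
      rw [h1, pow_add]
      omega

theorem InC.not {j : ℕ} {A : α → Prop} (hA : InC j A) : InC j (fun a => ¬ A a) :=
  InC_not_aux j hA

end Vale.Agent.P337
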