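import Mathlib
import Vale.Agent.Lib.Common.PolyTime.Typed4
import Vale.Agent.Lib.Common.PolyTime.FoldTools

/-!
P337, complexity side: the size of an encoding as a polynomial time function.
-/

namespace Vale.Agent.P337

open Vale.Agent.Lib.Common.PolyTime

variable {α β : Type} [TEnc α] [TEnc β]

/-! ### the program computing the size of a tree -/

/-- `k` times the symbols `L N` -/
def szLN : ℕ → List Sy
  | 0 => []
  | k + 1 => Sy.L :: Sy.N :: szLN k

/-- `k` times the symbols `N L` -/
def szNL : ℕ → List Sy
  | 0 => []
  | k + 1 => Sy.N :: Sy.L :: szNL k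

theorem szLN_append (k : ℕ) (R : List Sy) :
    szLN k ++ (Sy.L :: Sy.N :: R) = szLN (k + 1) ++ R := by
  induction k with
  | zero => rfl
  | succ k ih =>
    change Sy.L :: Sy.N :: (szLN k ++ (Sy.L :: Sy.N :: R)) = _
    rw [ih]
    rfl

theorem szNL_append (k : ℕ) (R : List Sy) :
    szNL k ++ (Sy.N :: Sy.L :: R) = szNL (k + 1) ++ R := by
  induction k with
  | zero => rfl
  | succ k ih =>
    change Sy.N :: Sy.L :: (szNL k ++ (Sy.N :: Sy.L :: R)) = _
    rw [ih]
    rfl

theorem szLN_reverse (k : ℕ) : (szLN k).reverse = szNL k := by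
  induction k with
  | zero => rfl
  | succ k ih =>
    change (Sy.L :: Sy.N :: szLN k).reverse = _
    rw [List.reverse_cons, List.reverse_cons, ih, List.append_assoc]
    have h := szNL_append k []
    rw [List.append_nil] at h
    exact h

theorem code_encNat (k : ℕ) : code (encNat k) = szNL k ++ [Sy.L] := by
  induction k with
  | zero => rfl
  | succ k ih =>
    change Sy.N :: ([Sy.L] ++ code (encNat k)) = Sy.N :: Sy.L :: (szNL k ++ [Sy.L])
    rw [ih]
    rfl

theorem H_notMem_szLN (k : ℕ) : Sy.H ∉ szLN k := by
  induction k with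
  | zero => simp [szLN]
  | succ k ih => simp [szLN, ih]

theorem length_szLN (k : ℕ) : (szLN k).length = 2 * k := by
  induction k with
  | zero => rfl
  | succ k ih =>
    simp only [szLN, List.length_cons, ih]
    ring

theorem foldl_szLN (w : List Sy) : ∀ s : WStore,
    w.foldl (fun (s : WStore) _ => Function.update s 1 (Sy.L :: Sy.N :: s 1)) s =
      Function.update s 1 (szLN w.length ++ s 1) := by
  induction w with
  | nil =>
    intro s
    rw [List.foldl_nil]
    exact (Function.update_eq_self 1 s).symm
  | cons a w ih =>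
    intro s
    rw [List.foldl_cons, ih, Function.update_self, Function.update_idem, szLN_append,
      List.length_cons]

/-- the program: replace the top tree by the unary code of its size -/
def szProg : WCmd :=
  Cmd.seq (Cmd.push 1 Sy.H)
    (Cmd.seq (scan 0 3 (fun _ => Cmd.seq (Cmd.push 1 Sy.N) (Cmd.push 1 Sy.L)))
      (Cmd.seq (Cmd.push 0 Sy.L) (back 1 0 3)))

theorem exec_szProg (s : WStore) (x : D) :
    ∃ t ≤ 53 * x.size + 30, Exec szProg (s.put x) (s.put (encNat x.size)) t := by
  have h01 : (0 : WK) ≠ 1 := by decide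
  have h03 : (0 : WK) ≠ 3 := by decide
  have h13 : (1 : WK) ≠ 3 := by decide
  obtain ⟨t1, ht1, h1⟩ := exec_scan (i := 0) (c := 3) (T := 3) h03
    (out := fun _ => Cmd.seq (Cmd.push 1 Sy.N) (Cmd.push 1 Sy.L))
    (eff := fun _ s => Function.update s 1 (Sy.L :: Sy.N :: s 1))
    (fun a s => ⟨3, le_rfl, by
      refine Exec.seq (t := 1) (t' := 1) (Exec.push _ _ _) ?_
      have h := Exec.push (Γ := fun _ => Sy) 1 Sy.L (Function.update s 1 (Sy.N :: s 1))
      rw [Function.update_self, Function.update_idem] at h
      exact h⟩)
    (fun a s l => by rw [Function.update_of_ne h01.symm, Function.update_comm h01])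
    (fun a s l => by rw [Function.update_of_ne h13, Function.update_comm h13.symm])
    x (Function.update s 1 (Sy.H :: s 1)) (s 0)
  rw [foldl_szLN, Function.update_self, Function.update_idem, length_code] at h1
  obtain ⟨t2, ht2, h2⟩ := exec_back (j := 1) (i := 0) (c := 3) h01.symm h13 h03
    (szLN x.size) (H_notMem_szLN _) (Function.update s 0 (Sy.L :: s 0)) (s 1)
  rw [length_szLN] at ht2
  refine ⟨1 + (t1 + (1 + t2 + 1) + 1) + 1, by omega, ?_⟩
  refine Exec.seq (s' := Function.update (Function.update s 1 (Sy.H :: s 1)) 0
      (code x ++ s 0)) ?_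
    (Exec.seq (s' := Function.update s 1 (szLN x.size ++ Sy.H :: s 1)) ?_
      (Exec.seq (s' := Function.update (Function.update s 0 (Sy.L :: s 0)) 1
        (szLN x.size ++ Sy.H :: s 1)) ?_ ?_))
  · have h := Exec.push (Γ := fun _ => Sy) 1 Sy.H (s.put x)
    convert h using 1
    funext k
    fin_cases k <;> simp [WStore.put, Function.update]
  · convert h1 using 1
    funext k
    fin_cases k <;> simp [Function.update]
  · have h := Exec.push (Γ := fun _ => Sy) 0 Sy.L
      (Function.update s 1 (szLN x.size ++ Sy.H :: s 1))
    convert h using 1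
    funext k
    fin_cases k <;> simp [Function.update]
  · convert h2 using 1
    rw [szLN_reverse, Function.update_self]
    unfold WStore.put
    rw [code_encNat]
    funext k
    fin_cases k <;> simp [Function.update]

theorem size_encNat (k : ℕ) : (encNat k).size = 2 * k + 1 := by
  induction k with
  | zero => rfl
  | succ k ih =>
    change 1 + (encNat k).size + 1 = _
    rw [ih]
    ring

/-- size of the encoding, as a polynomial time function -/
theorem PT_sz : PT (fun a : α => sz a) := by
  refine ⟨fun x => encNat x.size, ?_, fun a => rfl⟩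
  refine PolyOn.intro szProg (Polynomial.C 53 * Polynomial.X + Polynomial.C 30)
    (fun x _ => ?_) (fun x _ s => ?_)
  · rw [size_encNat]
    simp only [Polynomial.eval_add, Polynomial.eval_mul, Polynomial.eval_C, Polynomial.eval_X]
    omega
  · obtain ⟨t, ht, h⟩ := exec_szProg s x
    refine ⟨t, ?_, h⟩
    simp only [Polynomial.eval_add, Polynomial.eval_mul, Polynomial.eval_C, Polynomial.eval_X]
    exact ht

theorem PT_natPow {f : α → ℕ} (hf : PT f) (n : ℕ) : PT (fun a => f a ^ n) := by
  induction n with
  | zero =>
    simp only [pow_zero]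
    exact PT.const 1
  | succ n ih =>
    simp only [pow_succ]
    exact PT.mul ih hf

theorem PT_polyEval (p : Polynomial ℕ) {f : α → ℕ} (hf : PT f) : PT (fun a => p.eval (f a)) := by
  induction p using Polynomial.induction_on' with
  | add p q hp hq =>
    simp only [Polynomial.eval_add]
    exact PT.add hp hq
  | monomial n c =>
    simp only [Polynomial.eval_monomial]
    exact PT.mul (PT.const c) (PT_natPow hf n)

/-- a polynomially bounded function is bounded by a polynomial time function -/
theorem exists_PT_bound {g : α → ℕ} (hg : PB g) : ∃ l : α → ℕ, PT l ∧ ∀ a, g a ≤ l a := by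
  obtain ⟨p, hp⟩ := hg
  exact ⟨fun a => p.eval (sz a), PT_polyEval p PT_sz, hp⟩

end Vale.Agent.P337
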