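import Mathlib
import Vale.Agent.Lib.P337.Cx.ClassA
import Vale.Agent.Lib.P337.Cx.Size

/-!
P337, complexity side: closure properties of the typed counting hierarchy.
-/

namespace Vale.Agent.P337

open Vale.Agent.Lib.Common.PolyTime

variable {α β : Type} [TEnc α] [TEnc β]

theorem clb_finite (n : ℕ) (P : List Bool → Prop) :
    Finite {y : List Bool // y.length = n ∧ P y} :=
  ((List.finite_length_eq Bool n).subset (fun _ hy => hy.1)).to_subtype

theorem clb_cnt_pos (n : ℕ) (P : List Bool → Prop) :
    0 < cnt n P ↔ ∃ y : List Bool, y.length = n ∧ P y := by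
  have := clb_finite n P
  unfold cnt
  rw [Nat.card_pos_iff]
  constructor
  · rintro ⟨⟨y⟩, -⟩
    exact ⟨y.1, y.2⟩
  · rintro ⟨y, hy⟩
    exact ⟨⟨⟨y, hy⟩⟩, this⟩

theorem CHp.congr {A B : α → Prop} (hA : CHp A) (h : ∀ a, A a ↔ B a) : CHp B := by
  obtain ⟨j, hj⟩ := hA
  exact ⟨j, hj.congr h⟩

theorem CHp.of_PT {f : α → Bool} (hf : PT f) : CHp (fun a => f a = true) :=
  ⟨0, f, hf, fun _ => Iff.rfl⟩

theorem CHp.of_decide {P : α → Prop} [DecidablePred P] (hf : PT (fun a => decide (P a))) :
    CHp P :=
  (CHp.of_PT hf).congr fun a => by simp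

theorem CHp.const (P : Prop) : CHp (fun _ : α => P) := ⟨0, InC.const 0 P⟩

theorem CHp.pre {A : α → Prop} (hA : CHp A) {f : β → α} (hf : PT f) : CHp (fun b => A (f b)) := by
  obtain ⟨j, hj⟩ := hA
  exact ⟨j, hj.pre hf⟩

theorem CHp.not {A : α → Prop} (hA : CHp A) : CHp (fun a => ¬ A a) := by
  obtain ⟨j, hj⟩ := hA
  exact ⟨j, hj.not⟩

theorem clb_PT_head : PT (fun p : α × List Bool => decide (p.2.head? = some true)) := by
  fun_prop

theorem clb_PT_snd : PT (fun p : α × List Bool => decide (p.2.tail.head? = some true)) := by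
  fun_prop

theorem CHp.and {A B : α → Prop} (hA : CHp A) (hB : CHp B) : CHp (fun a => A a ∧ B a) := by
  classical
  obtain ⟨j, hj⟩ := hA
  obtain ⟨k, hk⟩ := hB
  have hA' : InC (max j k) A := hj.mono (le_max_left _ _)
  have hB' : InC (max j k) B := hk.mono (le_max_right _ _)
  have hfst : PT (fun p : α × List Bool => p.1) := by fun_prop
  have hE : InC (max j k) (fun p : α × List Bool =>
      if decide (p.2.tail.head? = some true) = true then
        (if decide (p.2.head? = some true) = true then False else True)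
      else (if decide (p.2.head? = some true) = true then A p.1 else B p.1)) :=
    ((InC.const _ False).ite (InC.const _ True) clb_PT_head).ite
      ((hA'.pre hfst).ite (hB'.pre hfst) clb_PT_head) clb_PT_snd
  refine ⟨max j k + 1, fun _ => 2, _, PT.const 2, hE, fun a => ?_⟩
  simp only [cnt_succ, cnt_zero, List.head?_cons, List.tail_cons, decide_true, if_true,
    Option.some.injEq, Bool.false_eq_true, decide_false, if_false]
  by_cases h1 : A a <;> by_cases h2 : B a <;> simp [h1, h2]

theorem CHp.or {A B : α → Prop} (hA : CHp A) (hB : CHp B) : CHp (fun a => A a ∨ B a) :=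
  ((hA.not.and hB.not).not).congr fun a => by tauto

theorem CHp.imp {A B : α → Prop} (hA : CHp A) (hB : CHp B) : CHp (fun a => A a → B a) :=
  (hA.not.or hB).congr fun a => by tauto

theorem CHp.iff {A B : α → Prop} (hA : CHp A) (hB : CHp B) : CHp (fun a => (A a ↔ B a)) :=
  ((hA.imp hB).and (hB.imp hA)).congr fun a => by tauto

/-- existential quantifier over bit strings of given length -/
theorem CHp.exists_str {l : α → ℕ} (hl : PT l) {B : α × List Bool → Prop} (hB : CHp B) :
    CHp (fun a => ∃ y : List Bool, y.length = l a ∧ B (a, y)) := by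
  classical
  obtain ⟨j, hj⟩ := hB
  have hf : PT (fun p : α × List Bool => (p.1, p.2.tail)) := by fun_prop
  have hE : InC j (fun p : α × List Bool =>
      if decide (p.2.head? = some true) = true then True else B (p.1, p.2.tail)) :=
    (InC.const _ True).ite (hj.pre hf) clb_PT_head
  refine ⟨j + 1, fun a => l a + 1, _, by fun_prop, hE, fun a => ?_⟩
  simp only [cnt_succ, List.head?_cons, List.tail_cons, decide_true, if_true,
    Option.some.injEq, Bool.false_eq_true, decide_false, if_false, cnt_true]
  rw [← clb_cnt_pos (l a) (fun y => B (a, y)), pow_succ]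
  omega

theorem CHp.forall_str {l : α → ℕ} (hl : PT l) {B : α × List Bool → Prop} (hB : CHp B) :
    CHp (fun a => ∀ y : List Bool, y.length = l a → B (a, y)) :=
  ((CHp.exists_str hl hB.not).not).congr fun a => by
    constructor
    · intro h y hy
      by_contra hn
      exact h ⟨y, hy, hn⟩
    · rintro h ⟨y, hy, hn⟩
      exact hn (h y hy)

/-- majority quantifier -/
theorem CHp.majority {l : α → ℕ} (hl : PT l) {B : α × List Bool → Prop} (hB : CHp B) :
    CHp (fun a => 2 ^ l a < 2 * cnt (l a) (fun y => B (a, y))) := by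
  obtain ⟨j, hj⟩ := hB
  exact ⟨j + 1, l, B, hl, hj, fun _ => Iff.rfl⟩

end Vale.Agent.P337
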