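import Mathlib
import Vale.Agent.Lib.P337.Defs
import Vale.Agent.Lib.P337.Cx.ClassB
import Vale.Agent.Lib.Common.PolyTime.Bin

/-!
P337, complexity side: natural numbers in binary.
-/

namespace Vale.Agent.P337

open Vale.Agent.Lib.Common.PolyTime

variable {α : Type} [TEnc α]

/-- natural numbers, encoded in binary -/
@[ext] structure BNat where
  v : ℕ

theorem bval_bits (n : ℕ) : bval (Nat.bits n) = n := by
  induction n using Nat.binaryRec' with
  | zero => simp [bval]
  | bit b n h ih =>
    rw [Nat.bits_append_bit _ _ h]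
    simp only [bval, ih, Nat.bit_val]
    omega

instance : TEnc BNat := ⟨fun n => TEnc.enc (Nat.bits n.v), by
  intro a b h
  have h1 : Nat.bits a.v = Nat.bits b.v := TEnc.inj h
  ext
  rw [← bval_bits a.v, h1, bval_bits]⟩

instance : DecidableEq BNat := fun a b => decidable_of_iff (a.v = b.v) BNat.ext_iff.symm

/-- the two evaluations of bit lists agree -/
theorem BNat_bval_eq (l : List Bool) : Vale.Agent.Lib.Common.PolyTime.bval l = bval l := by
  induction l with
  | nil => rfl
  | cons b l ih =>
    rw [bval_cons, ih, Nat.bit_val]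
    change _ = b.toNat + 2 * bval l
    omega

theorem bval_lt (l : List Bool) : bval l < 2 ^ l.length := by
  induction l with
  | nil => exact Nat.one_pos
  | cons b l ih =>
    change b.toNat + 2 * bval l < 2 ^ (l.length + 1)
    have h1 := Bool.toNat_le b
    rw [pow_succ]
    omega

/-- every number below `2 ^ n` has a unique code of length `n` -/
theorem exists_bval {n v : ℕ} (h : v < 2 ^ n) : ∃ l : List Bool, l.length = n ∧ bval l = v := by
  induction n generalizing v with
  | zero =>
    refine ⟨[], rfl, ?_⟩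
    change 0 = v
    rw [pow_zero] at h
    omega
  | succ n ih =>
    have h1 : v / 2 < 2 ^ n := by
      rw [pow_succ] at h
      omega
    obtain ⟨l, hl, hv⟩ := ih h1
    refine ⟨decide (v % 2 = 1) :: l, by rw [List.length_cons, hl], ?_⟩
    change (decide (v % 2 = 1)).toNat + 2 * bval l = v
    rw [hv]
    by_cases h2 : v % 2 = 1
    · rw [decide_eq_true h2, Bool.toNat_true]
      omega
    · rw [decide_eq_false h2, Bool.toNat_false]
      omega

theorem bval_inj {l m : List Bool} (h : l.length = m.length) (h' : bval l = bval m) : l = m := by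
  induction l generalizing m with
  | nil =>
    cases m with
    | nil => rfl
    | cons c m => simp at h
  | cons b l ih =>
    cases m with
    | nil => simp at h
    | cons c m =>
      change b.toNat + 2 * bval l = c.toNat + 2 * bval m at h'
      have h1 := Bool.toNat_le b
      have h2 := Bool.toNat_le c
      have h3 : b.toNat = c.toNat := by omega
      have h4 : bval l = bval m := by omega
      have h5 : b = c := by
        revert h3
        cases b <;> cases c <;> simp
      rw [ih (by simpa using h) h4, h5]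

theorem sz_BNat_le {n k : ℕ} (h : n < 2 ^ k) : sz (⟨n⟩ : BNat) ≤ 4 * k + 1 := by
  have h1 : sz (⟨n⟩ : BNat) = sz (⟨n⟩ : Bn) := rfl
  have h2 := sz_bn_le (⟨n⟩ : Bn)
  have h3 : Nat.size n ≤ k := Nat.size_le.mpr h
  rw [h1]
  change _ ≤ 4 * Nat.size n + 1 at h2
  omega

theorem lt_two_pow_sz (n : BNat) : n.v < 2 ^ sz n := by
  have h1 : sz n = sz (⟨n.v⟩ : Bn) := rfl
  have h2 := size_le_sz_bn (⟨n.v⟩ : Bn)
  change 2 * Nat.size n.v + 1 ≤ _ at h2
  refine lt_of_lt_of_le (Nat.lt_size_self n.v) (Nat.pow_le_pow_right two_pos ?_)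
  omega

/-- the two types of binary numbers have the same code -/
theorem BNat_toBn {f : α → BNat} (hf : PT f) : PT (fun a => (⟨(f a).v⟩ : Bn)) := by
  obtain ⟨F, hF, hF'⟩ := hf
  exact ⟨F, hF, fun a => hF' a⟩

theorem BNat_ofBn {f : α → Bn} (hf : PT f) : PT (fun a => (⟨(f a).val⟩ : BNat)) := by
  obtain ⟨F, hF, hF'⟩ := hf
  exact ⟨F, hF, fun a => hF' a⟩

@[fun_prop] theorem PT_bits {f : α → BNat} (hf : PT f) : PT (fun a => Nat.bits (f a).v) := by
  obtain ⟨F, hF, hF'⟩ := hf
  exact ⟨F, hF, fun a => hF' a⟩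

@[fun_prop] theorem PT_ofBits {f : α → List Bool} (hf : PT f) :
    PT (fun a => (⟨bval (f a)⟩ : BNat)) := by
  have h : (fun a => (⟨bval (f a)⟩ : BNat)) = fun a => ⟨(Bn.ofBits (f a)).val⟩ := by
    funext a
    rw [Bn.ofBits_val, BNat_bval_eq]
  rw [h]
  exact BNat_ofBn (PT.bnOfBits hf)

@[fun_prop] theorem PT_ofNat {f : α → ℕ} (hf : PT f) : PT (fun a => (⟨f a⟩ : BNat)) := by
  exact BNat_ofBn (PT.bnOfNat hf)

@[fun_prop] theorem PT_twoPow {f : α → ℕ} (hf : PT f) : PT (fun a => (⟨2 ^ f a⟩ : BNat)) := by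
  exact BNat_ofBn (PT.bnPow2 hf)

end Vale.Agent.P337
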