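import Mathlib
import Vale.Agent.Lib.P337.Cx.BNat

/-!
P337, complexity side: comparison of binary numbers.
-/

namespace Vale.Agent.P337

open Vale.Agent.Lib.Common.PolyTime

variable {α : Type} [TEnc α]

@[fun_prop] theorem PT_lt {f g : α → BNat} (hf : PT f) (hg : PT g) :
    PT (fun a => decide ((f a).v < (g a).v)) := by
  exact PT.bnLt (BNat_toBn hf) (BNat_toBn hg)

/-- the minimum of a binary and a unary number, in unary -/
@[fun_prop] theorem PT_cap {f : α → BNat} {g : α → ℕ} (hf : PT f) (hg : PT g) :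
    PT (fun a => min (f a).v (g a)) := by
  have h : (fun a => min (f a).v (g a)) = fun a =>
      bif Bn.le ⟨(f a).v⟩ (Bn.ofNat (g a)) then
        modU (g a + 1) (Bn.bits ⟨(f a).v⟩) else g a := by
    funext a
    by_cases h0 : (f a).v ≤ g a
    · have h1 : Bn.le ⟨(f a).v⟩ (Bn.ofNat (g a)) = true := decide_eq_true h0
      rw [h1, cond_true, min_eq_left h0]
      unfold modU
      rw [if_neg (Nat.succ_ne_zero _)]
      change _ = Vale.Agent.Lib.Common.PolyTime.bval (Nat.bits (f a).v) % (g a + 1)
      rw [bval_natBits]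
      exact (Nat.mod_eq_of_lt (by omega)).symm
    · have h1 : Bn.le ⟨(f a).v⟩ (Bn.ofNat (g a)) = false := decide_eq_false h0
      rw [h1, cond_false]
      exact min_eq_right (by omega)
  rw [h]
  have hF := BNat_toBn hf
  exact PT.bif (PT.bnLe hF (PT.bnOfNat hg)) (PT.modU (PT.succ hg) (PT.bnBits hF)) hg

end Vale.Agent.P337
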