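import Mathlib
import Vale.Agent.Lib.P337.Cx.BNatLt

/-!
P337, complexity side: addition and subtraction of binary numbers.
-/

namespace Vale.Agent.P337

open Vale.Agent.Lib.Common.PolyTime

variable {α : Type} [TEnc α]

@[fun_prop] theorem PT_badd {f g : α → BNat} (hf : PT f) (hg : PT g) :
    PT (fun a => (⟨(f a).v + (g a).v⟩ : BNat)) := by
  exact BNat_ofBn (PT.bnAdd (BNat_toBn hf) (BNat_toBn hg))

@[fun_prop] theorem PT_bsub {f g : α → BNat} (hf : PT f) (hg : PT g) :
    PT (fun a => (⟨(f a).v - (g a).v⟩ : BNat)) := by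
  exact BNat_ofBn (PT.bnSub (BNat_toBn hf) (BNat_toBn hg))

end Vale.Agent.P337
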