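import Mathlib
import Vale.Agent.Lib.P337.Cx.BNatAdd
import Vale.Agent.Lib.Common.PolyTime.Bin

/-!
P337, complexity side: modular multiplication and powers of binary numbers.
-/

namespace Vale.Agent.P337

open Vale.Agent.Lib.Common.PolyTime

variable {α : Type} [TEnc α]

/-- the two types of binary numbers have the same code -/
theorem BNatMul_toBn {f : α → BNat} (hf : PT f) : PT (fun a => (⟨(f a).v⟩ : Bn)) := by
  obtain ⟨F, hF, hF'⟩ := hf
  exact ⟨F, hF, fun a => hF' a⟩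

theorem BNatMul_ofBn {f : α → Bn} (hf : PT f) : PT (fun a => (⟨(f a).val⟩ : BNat)) := by
  obtain ⟨F, hF, hF'⟩ := hf
  exact ⟨F, hF, fun a => hF' a⟩

@[fun_prop] theorem PT_bmulmod {f g r : α → BNat} (hf : PT f) (hg : PT g) (hr : PT r) :
    PT (fun a => (⟨(f a).v * (g a).v % (r a).v⟩ : BNat)) :=
  BNatMul_ofBn (PT.bnMod (PT.bnMul (BNatMul_toBn hf) (BNatMul_toBn hg)) (BNatMul_toBn hr))

/-- one step of the power algorithm: square and multiply modulo `m` -/
def powStep (m x s : Bn) (b : Bool) : Bn := Bn.mod (Bn.mul (Bn.mul s s) (bif b then x else ⟨1⟩)) m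

theorem foldl_powStep (m x : Bn) (l : List Bool) :
    l.reverse.foldl (powStep m x) (Bn.mod ⟨1⟩ m) =
      ⟨x.val ^ (Vale.Agent.Lib.Common.PolyTime.bval l) % m.val⟩ := by
  induction l with
  | nil =>
    apply Bn.ext
    change 1 % m.val = x.val ^ 0 % m.val
    rw [pow_zero]
  | cons b l ih =>
    rw [List.reverse_cons, List.foldl_append, ih]
    apply Bn.ext
    rw [Vale.Agent.Lib.Common.PolyTime.bval_cons]
    set v := Vale.Agent.Lib.Common.PolyTime.bval l with hv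
    change (x.val ^ v % m.val) * (x.val ^ v % m.val) * (bif b then x else (⟨1⟩ : Bn)).val % m.val =
      x.val ^ (Nat.bit b v) % m.val
    have h1 : x.val ^ (Nat.bit b v) = x.val ^ v * x.val ^ v * (bif b then x else (⟨1⟩ : Bn)).val := by
      rw [Nat.bit_val, pow_add, two_mul, pow_add]
      cases b
      · change _ * x.val ^ 0 = _ * 1
        rw [pow_zero]
      · change _ * x.val ^ 1 = _ * x.val
        rw [pow_one]
    rw [h1]
    simp [Nat.mul_mod]

theorem powStep_lt (m x : Bn) (hm : 0 < m.val) (l : List Bool) :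
    (l.foldl (powStep m x) (Bn.mod ⟨1⟩ m)).val < m.val := by
  have h := foldl_powStep m x l.reverse
  rw [List.reverse_reverse] at h
  rw [h]
  exact Nat.mod_lt _ hm

theorem PT_powStep {m x : α → Bn} (hm : PT m) (hx : PT x) :
    PT (fun y : α × Bn × Bool => powStep (m y.1) (x y.1) y.2.1 y.2.2) := by
  have hm' : PT (fun y : α × Bn × Bool => m y.1) := hm.comp (PT.fst PT.id)
  have hx' : PT (fun y : α × Bn × Bool => x y.1) := hx.comp (PT.fst PT.id)
  have hs : PT (fun y : α × Bn × Bool => y.2.1) := PT.fst (PT.snd PT.id)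
  have hb : PT (fun y : α × Bn × Bool => y.2.2) := PT.snd (PT.snd PT.id)
  exact PT.bnMod (PT.bnMul (PT.bnMul hs hs) (PT.bif hb hx' (PT.const (⟨1⟩ : Bn)))) hm'

theorem PT_powFold {m x y : α → Bn} (hm : PT m) (hx : PT x) (hy : PT y)
    (h0 : ∀ a, 0 < (m a).val) :
    PT (fun a => (⟨(x a).val ^ (y a).val % (m a).val⟩ : Bn)) := by
  have h : (fun a => (⟨(x a).val ^ (y a).val % (m a).val⟩ : Bn)) = fun a =>
      (y a).bits.reverse.foldl (powStep (m a) (x a)) (Bn.mod ⟨1⟩ (m a)) := by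
    funext a
    rw [foldl_powStep]
    apply Bn.ext
    change _ = (x a).val ^ (Vale.Agent.Lib.Common.PolyTime.bval (Nat.bits (y a).val)) % (m a).val
    rw [bval_natBits]
  rw [h]
  refine PT.foldl_le (step := fun a => powStep (m a) (x a)) (PT_powStep hm hx)
    (PT.reverse (PT.bnBits hy)) (PT.bnMod (PT.const (⟨1⟩ : Bn)) hm) (h := fun a => (m a, m a))
    (PT.pair hm hm) fun a l₁ l₂ _ => ?_
  have h1 := powStep_lt (m a) (x a) (h0 a) l₁
  have h2 := Nat.size_le_size h1.le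
  have h3 := sz_bn_le (l₁.foldl (powStep (m a) (x a)) (Bn.mod ⟨1⟩ (m a)))
  have h4 := size_le_sz_bn (m a)
  rw [sz_pair]
  omega

@[fun_prop] theorem PT_bpowmod {f g r : α → BNat} (hf : PT f) (hg : PT g) (hr : PT r) :
    PT (fun a => (⟨if (r a).v = 0 then 0 else (f a).v ^ (g a).v % (r a).v⟩ : BNat)) := by
  have hR := BNatMul_toBn hr
  have hm : PT (fun a => Bn.max (⟨(r a).v⟩ : Bn) ⟨1⟩) := PT.bnMax hR (PT.const (⟨1⟩ : Bn))
  have h1 : PT (fun a => (⟨(f a).v ^ (g a).v % (Bn.max (⟨(r a).v⟩ : Bn) ⟨1⟩).val⟩ : Bn)) :=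
    PT_powFold (x := fun a => (⟨(f a).v⟩ : Bn)) (y := fun a => (⟨(g a).v⟩ : Bn)) hm
      (BNatMul_toBn hf) (BNatMul_toBn hg) fun a => by
        rw [Bn.max_val]
        exact lt_of_lt_of_le Nat.one_pos (Nat.le_max_right _ _)
  have h2 : PT (fun a => bif decide ((⟨(r a).v⟩ : Bn) = ⟨0⟩) then (⟨0⟩ : Bn) else
      (⟨(f a).v ^ (g a).v % (Bn.max (⟨(r a).v⟩ : Bn) ⟨1⟩).val⟩ : Bn)) :=
    PT.bif (PT.decide_eq hR (PT.const (⟨0⟩ : Bn))) (PT.const (⟨0⟩ : Bn)) h1
  have h3 : (fun a => (⟨if (r a).v = 0 then 0 else (f a).v ^ (g a).v % (r a).v⟩ : BNat)) =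
      fun a => (⟨(bif decide ((⟨(r a).v⟩ : Bn) = ⟨0⟩) then (⟨0⟩ : Bn) else
        (⟨(f a).v ^ (g a).v % (Bn.max (⟨(r a).v⟩ : Bn) ⟨1⟩).val⟩ : Bn)).val⟩ : BNat) := by
    funext a
    by_cases h0 : (r a).v = 0
    · rw [if_pos h0, decide_eq_true (show (⟨(r a).v⟩ : Bn) = ⟨0⟩ from Bn.ext h0), cond_true]
    · rw [if_neg h0, decide_eq_false (show ¬ (⟨(r a).v⟩ : Bn) = ⟨0⟩ from fun h => h0 (by
        have := congrArg Bn.val h
        exact this)), cond_false]
      rw [Bn.max_val]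
      have h5 : Nat.max (r a).v 1 = (r a).v := Nat.max_eq_left (Nat.pos_of_ne_zero h0)
      change _ = (⟨(f a).v ^ (g a).v % (Nat.max (r a).v 1)⟩ : BNat)
      rw [h5]
  rw [h3]
  exact BNatMul_ofBn h2

end Vale.Agent.P337
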