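import Mathlib
import Vale.Agent.Lib.P337.Cx.BNat
import Vale.Agent.Lib.P337.Cx.BNatLt

/-!
P337, complexity side: functions computable in the counting hierarchy; quantifiers over numbers.
-/

namespace Vale.Agent.P337

open Vale.Agent.Lib.Common.PolyTime

variable {α β : Type} [TEnc α] [TEnc β]

/-- functions with values below `2 ^ poly` whose graph is in the counting hierarchy -/
def FC (f : α → ℕ) : Prop :=
  (∃ l : α → ℕ, PT l ∧ ∀ a, f a < 2 ^ l a) ∧ CHp (fun p : α × BNat => f p.1 = p.2.v)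

theorem FC_cnt_bval (n : ℕ) (P : ℕ → Prop) :
    cnt n (fun y => P (bval y)) = Nat.card {v : ℕ // v < 2 ^ n ∧ P v} := by
  unfold cnt
  refine Nat.card_congr (Equiv.ofBijective
    (fun y => ⟨bval y.1, by
      have h := bval_lt y.1
      rw [y.2.1] at h
      exact h, y.2.2⟩) ⟨?_, ?_⟩)
  · rintro ⟨y, hy⟩ ⟨z, hz⟩ h
    have h1 : bval y = bval z := by simpa using h
    exact Subtype.ext (bval_inj (hy.1.trans hz.1.symm) h1)
  · rintro ⟨v, hv, hP⟩
    obtain ⟨y, hy, hyv⟩ := exists_bval hv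
    exact ⟨⟨y, hy, by simpa only [hyv] using hP⟩, Subtype.ext hyv⟩

theorem FC_cnt_ge {n v : ℕ} (_hv : v ≤ 2 ^ n) :
    cnt n (fun y => ¬ bval y < v) = 2 ^ n - v := by
  rw [FC_cnt_bval n (fun w => ¬ w < v)]
  have h : {w : ℕ // w < 2 ^ n ∧ ¬ w < v} = {w : ℕ // w ∈ Finset.Ico v (2 ^ n)} := by
    congr 1
    funext w
    rw [Finset.mem_Ico, not_lt, and_comm]
  rw [h, Nat.card_eq_fintype_card, Fintype.card_coe, Nat.card_Ico]

theorem FC_pre_bval {B : α → ℕ → Prop}
    (hB : CHp (fun p : α × BNat => B p.1 p.2.v)) :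
    CHp (fun p : α × List Bool => B p.1 (bval p.2)) :=
  CHp.pre (f := fun p : α × List Bool => (p.1, (⟨bval p.2⟩ : BNat))) hB (by fun_prop)

theorem CHp.exists_lt_pow {l : α → ℕ} (hl : PT l) {B : α → ℕ → Prop}
    (hB : CHp (fun p : α × BNat => B p.1 p.2.v)) : CHp (fun a => ∃ v < 2 ^ l a, B a v) := by
  refine (CHp.exists_str hl (FC_pre_bval hB)).congr fun a => ?_
  constructor
  · rintro ⟨y, hy, hB⟩
    refine ⟨bval y, ?_, hB⟩
    rw [← hy]
    exact bval_lt y
  · rintro ⟨v, hv, hB⟩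
    obtain ⟨y, hy, hyv⟩ := exists_bval hv
    exact ⟨y, hy, by simpa [hyv] using hB⟩

theorem CHp.forall_lt_pow {l : α → ℕ} (hl : PT l) {B : α → ℕ → Prop}
    (hB : CHp (fun p : α × BNat => B p.1 p.2.v)) : CHp (fun a => ∀ v < 2 ^ l a, B a v) := by
  refine (CHp.not (CHp.exists_lt_pow hl (B := fun a v => ¬ B a v) (CHp.not hB))).congr
    fun a => ?_
  push Not
  rfl

/-- counting: comparison of the number of solutions with a binary number -/
theorem CHp.lt_count_pow {l : α → ℕ} (hl : PT l) {B : α → ℕ → Prop}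
    (hB : CHp (fun p : α × BNat => B p.1 p.2.v)) :
    CHp (fun p : α × BNat => p.2.v < Nat.card {v : ℕ // v < 2 ^ l p.1 ∧ B p.1 v}) := by
  classical
  have hB' := FC_pre_bval hB
  have hhead : CHp (fun q : (α × BNat) × List Bool => q.2.head? = some true) :=
    CHp.of_decide (by fun_prop)
  have h1 : CHp (fun q : (α × BNat) × List Bool => ¬ bval q.2.tail < q.1.2.v) :=
    CHp.not (CHp.of_decide (P := fun q : (α × BNat) × List Bool => bval q.2.tail < q.1.2.v)
      (PT_lt (f := fun q : (α × BNat) × List Bool => (⟨bval q.2.tail⟩ : BNat))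
        (g := fun q : (α × BNat) × List Bool => q.1.2) (by fun_prop) (by fun_prop)))
  have h2 : CHp (fun q : (α × BNat) × List Bool => B q.1.1 (bval q.2.tail)) :=
    CHp.pre (f := fun q : (α × BNat) × List Bool => (q.1.1, q.2.tail)) hB' (by fun_prop)
  have h3 : CHp (fun q : (α × BNat) × List Bool =>
      (q.2.head? = some true ∧ ¬ bval q.2.tail < q.1.2.v) ∨
        (¬ q.2.head? = some true ∧ B q.1.1 (bval q.2.tail))) :=
    CHp.or (CHp.and hhead h1) (CHp.and (CHp.not hhead) h2)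
  have h4 := CHp.majority (l := fun p : α × BNat => l p.1 + 1) (by fun_prop) h3
  have h5 : CHp (fun p : α × BNat => ¬ (2 ^ l p.1 < p.2.v)) :=
    CHp.not (CHp.of_decide (P := fun p : α × BNat => 2 ^ l p.1 < p.2.v)
      (PT_lt (f := fun p : α × BNat => (⟨2 ^ l p.1⟩ : BNat))
        (g := fun p : α × BNat => p.2) (by fun_prop) (by fun_prop)))
  refine (CHp.and h5 h4).congr fun p => ?_
  have hc : cnt (l p.1) (fun y => B p.1 (bval y)) =
      Nat.card {v : ℕ // v < 2 ^ l p.1 ∧ B p.1 v} := FC_cnt_bval _ _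
  have hle : cnt (l p.1) (fun y => B p.1 (bval y)) ≤ 2 ^ l p.1 := by
    have := cnt_add_not (l p.1) (fun y => B p.1 (bval y))
    omega
  simp only [cnt_succ, List.head?_cons, List.tail_cons, Option.some.injEq, Bool.false_eq_true,
    not_true_eq_false, false_and, or_false, true_and, not_false_eq_true, false_or]
  rw [← hc]
  constructor
  · rintro ⟨h6, h7⟩
    rw [FC_cnt_ge (not_lt.1 h6), pow_succ] at h7
    omega
  · intro h6
    have h7 : p.2.v ≤ 2 ^ l p.1 := by omega
    refine ⟨not_lt.2 h7, ?_⟩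
    rw [FC_cnt_ge h7, pow_succ]
    omega

end Vale.Agent.P337
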