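import Mathlib
import Vale.Agent.Lib.P337.Cx.FC
import Vale.Agent.Lib.P337.Cx.BNatLt

/-!
P337, complexity side: basic closure properties of FC.
-/

namespace Vale.Agent.P337

open Vale.Agent.Lib.Common.PolyTime

variable {α β : Type} [TEnc α] [TEnc β]

theorem FC.congr {f g : α → ℕ} (hf : FC f) (h : ∀ a, f a = g a) : FC g := by
  rwa [funext h] at hf

theorem FC.of_PT {f : α → BNat} (hf : PT f) : FC (fun a => (f a).v) := by
  obtain ⟨l, hl, hl'⟩ := exists_PT_bound (PT.pb hf)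
  refine ⟨⟨l, hl, fun a => ?_⟩, ?_⟩
  · exact (lt_two_pow_sz (f a)).trans_le (Nat.pow_le_pow_right (by norm_num) (hl' a))
  · refine CHp.congr (CHp.of_decide (P := fun p : α × BNat => f p.1 = p.2) (by fun_prop)) ?_
    intro p
    exact BNat.ext_iff

theorem FC.of_PTnat {f : α → ℕ} (hf : PT f) : FC f :=
  FC.congr (FC.of_PT (PT_ofNat hf)) fun _ => rfl

theorem FC.const (n : ℕ) : FC (fun _ : α => n) := FC.of_PTnat (PT.const n)

theorem FC.twoPow {f : α → ℕ} (hf : PT f) : FC (fun a => 2 ^ f a) :=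
  FC.congr (FC.of_PT (PT_twoPow hf)) fun _ => rfl

theorem FC.pre {f : α → ℕ} (hf : FC f) {φ : β → α} (hφ : PT φ) : FC (fun b => f (φ b)) := by
  obtain ⟨⟨l, hl, hb⟩, h⟩ := hf
  refine ⟨⟨fun b => l (φ b), by fun_prop, fun b => hb _⟩, ?_⟩
  exact CHp.pre (f := fun p : β × BNat => (φ p.1, p.2)) h (by fun_prop)

/-- from the threshold predicate to the graph -/
theorem FC.of_lt {f : α → ℕ} {l : α → ℕ} (hl : PT l) (hb : ∀ a, f a < 2 ^ l a)
    (h : CHp (fun p : α × BNat => p.2.v < f p.1)) : FC f := by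
  refine ⟨⟨l, hl, hb⟩, ?_⟩
  have h1 : CHp (fun p : α × BNat => ∀ w < 2 ^ l p.1, (w < p.2.v → w < f p.1)) := by
    refine CHp.forall_lt_pow (α := α × BNat) (l := fun p => l p.1)
      (B := fun p w => (w < p.2.v → w < f p.1)) (by fun_prop) ?_
    refine CHp.imp (CHp.of_decide (by fun_prop)) ?_
    exact CHp.pre (f := fun r : (α × BNat) × BNat => (r.1.1, r.2)) h (by fun_prop)
  refine CHp.congr (CHp.and (CHp.not h) h1) fun p => ?_
  constructor
  · rintro ⟨h2, h3⟩
    by_contra hne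
    have h4 : f p.1 < p.2.v := by omega
    exact lt_irrefl _ (h3 _ (hb p.1) h4)
  · intro h2
    constructor
    · omega
    · intro w _ hw
      omega

/-- substitution of a function into a predicate -/
theorem CHp.subst {B : α → ℕ → Prop} (hB : CHp (fun p : α × BNat => B p.1 p.2.v)) {f : α → ℕ}
    (hf : FC f) : CHp (fun a => B a (f a)) := by
  obtain ⟨⟨l, hl, hb⟩, h⟩ := hf
  have h1 : CHp (fun a => ∃ w < 2 ^ l a, f a = w ∧ B a w) :=
    CHp.exists_lt_pow hl (B := fun a w => f a = w ∧ B a w) (CHp.and h hB)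
  refine CHp.congr h1 fun a => ?_
  constructor
  · rintro ⟨w, -, rfl, hw⟩
    exact hw
  · intro hw
    exact ⟨f a, hb a, rfl, hw⟩

/-- substitution of a function into a function -/
theorem FC.subst {g : α → ℕ → ℕ} (hg : FC (fun p : α × BNat => g p.1 p.2.v)) {f : α → ℕ}
    (hf : FC f) : FC (fun a => g a (f a)) := by
  obtain ⟨⟨l, hl, hb⟩, h⟩ := hg
  obtain ⟨m, hm, hmb⟩ := hf.1
  obtain ⟨P, hP⟩ := PT.size_le hl
  refine ⟨⟨fun a => P.eval (sz a + (4 * m a + 1) + 1), ?_, fun a => ?_⟩, ?_⟩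
  · exact PT_polyEval P (PT.add (PT.add PT_sz (PT.add (PT.mul (PT.const 4) hm) (PT.const 1)))
      (PT.const 1))
  · refine (hb (a, ⟨f a⟩)).trans_le (Nat.pow_le_pow_right (by norm_num) ?_)
    have h1 := hP (a, ⟨f a⟩)
    rw [sz_nat, sz_pair] at h1
    have h2 : P.eval (sz a + sz (⟨f a⟩ : BNat) + 1) ≤ P.eval (sz a + (4 * m a + 1) + 1) := by
      apply poly_mono
      have := sz_BNat_le (hmb a)
      omega
    change l (a, ⟨f a⟩) ≤ P.eval (sz a + (4 * m a + 1) + 1)
    omega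
  · have h1 : CHp (fun r : (α × BNat) × BNat => g r.1.1 r.2.v = r.1.2.v) :=
      CHp.pre (f := fun r : (α × BNat) × BNat => ((r.1.1, r.2), r.1.2)) h (by fun_prop)
    exact CHp.subst (α := α × BNat) (B := fun p w => g p.1 w = p.2.v) h1
      (FC.pre hf (φ := fun p : α × BNat => p.1) (by fun_prop))

theorem CHp.lt {f g : α → ℕ} (hf : FC f) (hg : FC g) : CHp (fun a => f a < g a) := by
  have h1 : CHp (fun r : (α × BNat) × BNat => r.1.2.v < r.2.v) := CHp.of_decide (by fun_prop)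
  have h2 : CHp (fun p : α × BNat => p.2.v < g p.1) :=
    CHp.subst (α := α × BNat) (B := fun p w => p.2.v < w) h1
      (FC.pre hg (φ := fun p : α × BNat => p.1) (by fun_prop))
  exact CHp.subst (B := fun a w => w < g a) h2 hf

theorem CHp.le {f g : α → ℕ} (hf : FC f) (hg : FC g) : CHp (fun a => f a ≤ g a) :=
  CHp.congr (CHp.not (CHp.lt hg hf)) fun _ => not_lt

theorem CHp.eq {f g : α → ℕ} (hf : FC f) (hg : FC g) : CHp (fun a => f a = g a) :=
  CHp.congr (CHp.subst (B := fun a w => g a = w) hg.2 hf) fun _ => eq_comm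

theorem CHp.exists_lt {M : α → ℕ} (hM : FC M) {B : α → ℕ → Prop}
    (hB : CHp (fun p : α × BNat => B p.1 p.2.v)) : CHp (fun a => ∃ v < M a, B a v) := by
  obtain ⟨l, hl, hb⟩ := hM.1
  have h0 : CHp (fun p : α × BNat => p.2.v < M p.1) :=
    CHp.lt (FC.of_PT (by fun_prop)) (FC.pre hM (φ := fun p : α × BNat => p.1) (by fun_prop))
  have h1 : CHp (fun a => ∃ v < 2 ^ l a, v < M a ∧ B a v) :=
    CHp.exists_lt_pow hl (B := fun a v => v < M a ∧ B a v) (CHp.and h0 hB)
  refine CHp.congr h1 fun a => ?_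
  constructor
  · rintro ⟨v, -, h2, h3⟩
    exact ⟨v, h2, h3⟩
  · rintro ⟨v, h2, h3⟩
    exact ⟨v, h2.trans (hb a), h2, h3⟩

theorem CHp.forall_lt {M : α → ℕ} (hM : FC M) {B : α → ℕ → Prop}
    (hB : CHp (fun p : α × BNat => B p.1 p.2.v)) : CHp (fun a => ∀ v < M a, B a v) := by
  refine CHp.congr (CHp.not (CHp.exists_lt hM (B := fun a v => ¬ B a v) (CHp.not hB)))
    fun a => ?_
  push Not
  rfl

open Classical in
theorem FC.ite {c : α → Prop} (hc : CHp c) {f g : α → ℕ} (hf : FC f) (hg : FC g) :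
    FC (fun a => if c a then f a else g a) := by
  obtain ⟨⟨l, hl, hlb⟩, h⟩ := hf
  obtain ⟨⟨m, hm, hmb⟩, h'⟩ := hg
  refine ⟨⟨fun a => l a + m a, by fun_prop, fun a => ?_⟩, ?_⟩
  · dsimp only
    split
    · exact (hlb a).trans_le (Nat.pow_le_pow_right (by norm_num) (Nat.le_add_right _ _))
    · exact (hmb a).trans_le (Nat.pow_le_pow_right (by norm_num) (Nat.le_add_left _ _))
  · have hc' : CHp (fun p : α × BNat => c p.1) :=
      CHp.pre (f := fun p : α × BNat => p.1) hc (by fun_prop)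
    refine CHp.congr (CHp.or (CHp.and hc' h) (CHp.and (CHp.not hc') h')) fun p => ?_
    by_cases h1 : c p.1
    · simp [h1]
    · simp [h1]

end Vale.Agent.P337
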