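import Mathlib
import Vale.Agent.Lib.P337.Cx.FCA

/-!
P337, complexity side: singly and doubly exponentially bounded functions.
-/

namespace Vale.Agent.P337

open Vale.Agent.Lib.Common.PolyTime

variable {α : Type} [TEnc α]

/-- singly exponentially bounded functions -/
def SE (f : α → ℕ) : Prop := ∃ l : α → ℕ, PT l ∧ ∀ a, f a ≤ 2 ^ l a

/-- doubly exponentially bounded functions -/
def DE (f : α → ℕ) : Prop := ∃ l : α → ℕ, PT l ∧ ∀ a, f a ≤ 2 ^ 2 ^ l a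

theorem SE.of_PT {f : α → ℕ} (hf : PT f) : SE f :=
  ⟨f, hf, fun _ => Nat.lt_two_pow_self.le⟩

theorem SE.of_FC {f : α → ℕ} (hf : FC f) : SE f := by
  obtain ⟨⟨l, hl, hb⟩, -⟩ := hf
  exact ⟨l, hl, fun a => (hb a).le⟩

theorem SE.of_BNat {f : α → BNat} (hf : PT f) : SE (fun a => (f a).v) :=
  SE.of_FC (FC.of_PT hf)

theorem SE.const (n : ℕ) : SE (fun _ : α => n) := SE.of_PT (PT.const n)

theorem SE.mono {f g : α → ℕ} (hg : SE g) (h : ∀ a, f a ≤ g a) : SE f := by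
  obtain ⟨l, hl, hb⟩ := hg
  exact ⟨l, hl, fun a => (h a).trans (hb a)⟩

theorem bounds_add_le (x y : ℕ) : 2 ^ x + 2 ^ y ≤ 2 ^ (x + y + 1) := by
  have h1 : 2 ^ x ≤ 2 ^ (x + y) := Nat.pow_le_pow_right (by norm_num) (by omega)
  have h2 : 2 ^ y ≤ 2 ^ (x + y) := Nat.pow_le_pow_right (by norm_num) (by omega)
  rw [pow_succ]
  omega

theorem SE.add {f g : α → ℕ} (hf : SE f) (hg : SE g) : SE (fun a => f a + g a) := by
  obtain ⟨l, hl, hb⟩ := hf
  obtain ⟨m, hm, hc⟩ := hg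
  refine ⟨fun a => l a + m a + 1, by fun_prop, fun a => ?_⟩
  exact (Nat.add_le_add (hb a) (hc a)).trans (bounds_add_le _ _)

theorem SE.mul {f g : α → ℕ} (hf : SE f) (hg : SE g) : SE (fun a => f a * g a) := by
  obtain ⟨l, hl, hb⟩ := hf
  obtain ⟨m, hm, hc⟩ := hg
  refine ⟨fun a => l a + m a, by fun_prop, fun a => ?_⟩
  rw [pow_add]
  exact Nat.mul_le_mul (hb a) (hc a)

theorem SE.pow {f k : α → ℕ} (hf : SE f) (hk : PT k) : SE (fun a => f a ^ k a) := by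
  obtain ⟨l, hl, hb⟩ := hf
  refine ⟨fun a => l a * k a, by fun_prop, fun a => ?_⟩
  rw [pow_mul]
  exact Nat.pow_le_pow_left (hb a) _

theorem SE.twoPow {k : α → ℕ} (hk : PT k) : SE (fun a => 2 ^ k a) :=
  ⟨k, hk, fun _ => le_rfl⟩

theorem SE.toDE {f : α → ℕ} (hf : SE f) : DE f := by
  obtain ⟨l, hl, hb⟩ := hf
  exact ⟨l, hl, fun a => (hb a).trans (Nat.pow_le_pow_right (by norm_num)
    Nat.lt_two_pow_self.le)⟩

theorem DE.const (n : ℕ) : DE (fun _ : α => n) := (SE.const n).toDE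

theorem DE.mono {f g : α → ℕ} (hg : DE g) (h : ∀ a, f a ≤ g a) : DE f := by
  obtain ⟨l, hl, hb⟩ := hg
  exact ⟨l, hl, fun a => (h a).trans (hb a)⟩

theorem DE.mul {f g : α → ℕ} (hf : DE f) (hg : DE g) : DE (fun a => f a * g a) := by
  obtain ⟨l, hl, hb⟩ := hf
  obtain ⟨m, hm, hc⟩ := hg
  refine ⟨fun a => l a + m a + 1, by fun_prop, fun a => ?_⟩
  calc f a * g a ≤ 2 ^ 2 ^ l a * 2 ^ 2 ^ m a := Nat.mul_le_mul (hb a) (hc a)
    _ = 2 ^ (2 ^ l a + 2 ^ m a) := (pow_add _ _ _).symm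
    _ ≤ 2 ^ 2 ^ (l a + m a + 1) := Nat.pow_le_pow_right (by norm_num) (bounds_add_le _ _)

theorem DE.add {f g : α → ℕ} (hf : DE f) (hg : DE g) : DE (fun a => f a + g a) := by
  have h1 : DE (fun a => (f a + 1) * (g a + 1)) := by
    apply DE.mul
    · obtain ⟨l, hl, hb⟩ := hf
      refine ⟨fun a => l a + 1, by fun_prop, fun a => ?_⟩
      calc f a + 1 ≤ 2 ^ 2 ^ l a + 2 ^ 0 := Nat.add_le_add (hb a) le_rfl
        _ ≤ 2 ^ (2 ^ l a + 0 + 1) := bounds_add_le _ _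
        _ ≤ 2 ^ 2 ^ (l a + 1) := Nat.pow_le_pow_right (by norm_num) (by
          rw [pow_succ]
          have := Nat.one_le_two_pow (n := l a)
          omega)
    · obtain ⟨l, hl, hb⟩ := hg
      refine ⟨fun a => l a + 1, by fun_prop, fun a => ?_⟩
      calc g a + 1 ≤ 2 ^ 2 ^ l a + 2 ^ 0 := Nat.add_le_add (hb a) le_rfl
        _ ≤ 2 ^ (2 ^ l a + 0 + 1) := bounds_add_le _ _
        _ ≤ 2 ^ 2 ^ (l a + 1) := Nat.pow_le_pow_right (by norm_num) (by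
          rw [pow_succ]
          have := Nat.one_le_two_pow (n := l a)
          omega)
  exact DE.mono h1 fun a => by nlinarith

theorem DE.pow {f k : α → ℕ} (hf : DE f) (hk : SE k) : DE (fun a => f a ^ k a) := by
  obtain ⟨l, hl, hb⟩ := hf
  obtain ⟨m, hm, hc⟩ := hk
  refine ⟨fun a => l a + m a, by fun_prop, fun a => ?_⟩
  calc f a ^ k a ≤ (2 ^ 2 ^ l a) ^ k a := Nat.pow_le_pow_left (hb a) _
    _ ≤ (2 ^ 2 ^ l a) ^ 2 ^ m a := Nat.pow_le_pow_right (by positivity) (hc a)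
    _ = 2 ^ 2 ^ (l a + m a) := by rw [← pow_mul, ← pow_add]

theorem DE.twoTwoPow {k : α → ℕ} (hk : PT k) : DE (fun a => 2 ^ 2 ^ k a) :=
  ⟨k, hk, fun _ => le_rfl⟩

/-- strict bounds -/
theorem SE.exists_lt {f : α → ℕ} (hf : SE f) : ∃ l : α → ℕ, PT l ∧ ∀ a, f a < 2 ^ l a := by
  obtain ⟨l, hl, hb⟩ := hf
  exact ⟨fun a => l a + 1, by fun_prop, fun a => (hb a).trans_lt
    (Nat.pow_lt_pow_right (by norm_num) (Nat.lt_succ_self _))⟩

theorem DE.exists_lt {f : α → ℕ} (hf : DE f) : ∃ l : α → ℕ, PT l ∧ ∀ a, f a < 2 ^ 2 ^ l a := by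
  obtain ⟨l, hl, hb⟩ := hf
  exact ⟨fun a => l a + 1, by fun_prop, fun a => (hb a).trans_lt
    (Nat.pow_lt_pow_right (by norm_num) (Nat.pow_lt_pow_right (by norm_num)
      (Nat.lt_succ_self _)))⟩

end Vale.Agent.P337
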