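import Mathlib
import Vale.Agent.Lib.P337.Cx.FCA

/-!
P337, complexity side: counting and sums.
-/

namespace Vale.Agent.P337

open Vale.Agent.Lib.Common.PolyTime

variable {α β : Type} [TEnc α] [TEnc β]

open Classical in
theorem FC.count {M : α → ℕ} (hM : FC M) {B : α → ℕ → Prop}
    (hB : CHp (fun p : α × BNat => B p.1 p.2.v)) :
    FC (fun a => ((Finset.range (M a)).filter (fun v => B a v)).card) := by
  obtain ⟨l, hl, hlM⟩ := hM.1
  have hM2 : FC (fun p : α × BNat => M p.1) := hM.pre (PT.fst PT.id)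
  have hv : FC (fun p : α × BNat => p.2.v) := FC.of_PT (PT.snd PT.id)
  have hB' : CHp (fun p : α × BNat => (fun (a : α) (v : ℕ) => v < M a ∧ B a v) p.1 p.2.v) :=
    CHp.and (CHp.lt hv hM2) hB
  have hc := CHp.lt_count_pow (B := fun (a : α) (v : ℕ) => v < M a ∧ B a v) hl hB'
  have hcard : ∀ a, Nat.card {v : ℕ // v < 2 ^ l a ∧ (v < M a ∧ B a v)} =
      ((Finset.range (M a)).filter (fun v => B a v)).card := by
    intro a
    refine Nat.subtype_card ((Finset.range (M a)).filter (fun v => B a v)) ?_
    intro v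
    simp only [Finset.mem_filter, Finset.mem_range]
    constructor
    · intro h
      exact ⟨h.1.trans (hlM a), h⟩
    · intro h
      exact h.2
  refine FC.of_lt (l := fun a => l a) hl ?_ ?_
  · intro a
    refine lt_of_le_of_lt (Finset.card_filter_le _ _) ?_
    rw [Finset.card_range]
    exact hlM a
  · refine hc.congr ?_
    intro p
    rw [hcard]

theorem bval_div_pow (l : List Bool) (k : ℕ) : bval (l.drop k) = bval l / 2 ^ k := by
  induction k generalizing l with
  | zero => simp
  | succ k ih =>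
    cases l with
    | nil => simp [bval]
    | cons b l =>
      rw [List.drop_succ_cons, ih]
      change _ = (b.toNat + 2 * bval l) / 2 ^ (k + 1)
      have h1 := Bool.toNat_le b
      rw [pow_succ', ← Nat.div_div_eq_div_mul]
      congr 1
      omega

theorem bval_mod_pow (l : List Bool) (k : ℕ) : bval (l.take k) = bval l % 2 ^ k := by
  induction k generalizing l with
  | zero => simp [bval, Nat.mod_one]
  | succ k ih =>
    cases l with
    | nil => simp [bval]
    | cons b l =>
      rw [List.take_succ_cons]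
      change b.toNat + 2 * bval (l.take k) = (b.toNat + 2 * bval l) % 2 ^ (k + 1)
      have h1 := Bool.toNat_le b
      rw [ih, pow_succ', Nat.mod_mul]
      have h2 : (b.toNat + 2 * bval l) / 2 = bval l := by omega
      rw [h2]
      omega

/-- the digits of a pair number count the points under a graph -/
theorem card_filter_pair (K : ℕ) (hK : 0 < K) (F : ℕ → ℕ) (M : ℕ) (hF : ∀ v < M, F v ≤ K) :
    ((Finset.range (M * K)).filter (fun n => n % K < F (n / K))).card =
      ∑ v ∈ Finset.range M, F v := by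
  induction M with
  | zero => simp
  | succ M ih =>
    have h1 := ih (fun v hv => hF v (by omega))
    rw [Finset.card_filter] at h1 ⊢
    rw [Finset.sum_range_succ, ← h1, add_mul, one_mul, Finset.sum_range_add]
    congr 1
    have h2 : ∀ x ∈ Finset.range K,
        (if (M * K + x) % K < F ((M * K + x) / K) then 1 else 0) = if x < F M then 1 else 0 := by
      intro x hx
      rw [Finset.mem_range] at hx
      rw [mul_comm M K, Nat.mul_add_mod, Nat.mod_eq_of_lt hx, Nat.mul_add_div hK,
        Nat.div_eq_of_lt hx, add_zero]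
    rw [Finset.sum_congr rfl h2, ← Finset.card_filter]
    have h3 : (Finset.range K).filter (fun x => x < F M) = Finset.range (F M) := by
      ext x
      have := hF M (by omega)
      simp only [Finset.mem_filter, Finset.mem_range]
      omega
    rw [h3, Finset.card_range]

theorem FC.sum {M : α → ℕ} (hM : FC M) {F : α → ℕ → ℕ}
    (hF : FC (fun p : α × BNat => F p.1 p.2.v)) : FC (fun a => ∑ v ∈ Finset.range (M a), F a v) := by
  classical
  obtain ⟨l, hl, hlM⟩ := hM.1
  obtain ⟨m, hm, hmF⟩ := hF.1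
  obtain ⟨q, hq⟩ := hm.size_le
  set k : α → ℕ := fun a => q.eval (sz a + (4 * l a + 1) + 1) with hk
  have hkPT : PT k := by
    refine PT_polyEval q ?_
    have h1 : PT (fun a : α => sz a) := PT_sz
    fun_prop
  have hFk : ∀ a, ∀ v < M a, F a v ≤ 2 ^ k a := by
    intro a v hv
    have h1 := hmF (a, ⟨v⟩)
    have h2 : m (a, ⟨v⟩) ≤ k a := by
      have h3 := hq (a, ⟨v⟩)
      rw [sz_nat, sz_pair] at h3
      have h4 := sz_BNat_le (n := v) (k := l a) (hv.trans (hlM a))
      have h5 : q.eval (sz a + sz (⟨v⟩ : BNat) + 1) ≤ k a := poly_mono q (by omega)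
      omega
    exact h1.le.trans (Nat.pow_le_pow_right two_pos h2)
  have hdv : PT (fun p : α × BNat => (⟨bval ((Nat.bits p.2.v).drop (k p.1))⟩ : BNat)) := by
    have h1 : PT (fun p : α × BNat => k p.1) := PT.comp hkPT (PT.fst PT.id)
    have h2 : PT (fun p : α × BNat => Nat.bits p.2.v) := PT_bits (PT.snd PT.id)
    exact PT_ofBits (PT.drop h2 h1)
  have hmd : PT (fun p : α × BNat => (⟨bval ((Nat.bits p.2.v).take (k p.1))⟩ : BNat)) := by
    have h1 : PT (fun p : α × BNat => k p.1) := PT.comp hkPT (PT.fst PT.id)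
    have h2 : PT (fun p : α × BNat => Nat.bits p.2.v) := PT_bits (PT.snd PT.id)
    exact PT_ofBits (PT.take h2 h1)
  have hM2 : FC (fun p : α × BNat => M p.1) := hM.pre (PT.fst PT.id)
  have hF2 : FC (fun p : α × BNat => F p.1 (p.2.v / 2 ^ k p.1)) := by
    have h1 := hF.pre (φ := fun p : α × BNat =>
      (p.1, (⟨bval ((Nat.bits p.2.v).drop (k p.1))⟩ : BNat))) (PT.pair (PT.fst PT.id) hdv)
    refine h1.congr ?_
    intro p
    change F p.1 (bval ((Nat.bits p.2.v).drop (k p.1))) = _
    rw [bval_div_pow, bval_bits]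
  have hB : CHp (fun p : α × BNat => (fun (a : α) (n : ℕ) =>
      n / 2 ^ k a < M a ∧ n % 2 ^ k a < F a (n / 2 ^ k a)) p.1 p.2.v) := by
    refine CHp.and (CHp.lt ?_ hM2) (CHp.lt ?_ hF2)
    · refine (FC.of_PT hdv).congr ?_
      intro p
      change bval ((Nat.bits p.2.v).drop (k p.1)) = _
      rw [bval_div_pow, bval_bits]
    · refine (FC.of_PT hmd).congr ?_
      intro p
      change bval ((Nat.bits p.2.v).take (k p.1)) = _
      rw [bval_mod_pow, bval_bits]
  have hN : FC (fun a => 2 ^ (l a + k a)) := FC.twoPow (PT.add hl hkPT)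
  refine (FC.count (B := fun (a : α) (n : ℕ) =>
    n / 2 ^ k a < M a ∧ n % 2 ^ k a < F a (n / 2 ^ k a)) hN hB).congr ?_
  intro a
  rw [← card_filter_pair (2 ^ k a) (Nat.two_pow_pos _) (F a) (M a) (hFk a)]
  congr 1
  ext n
  simp only [Finset.mem_filter, Finset.mem_range]
  have h1 : n / 2 ^ k a < M a ↔ n < M a * 2 ^ k a := Nat.div_lt_iff_lt_mul (Nat.two_pow_pos _)
  have h2 : M a * 2 ^ k a ≤ 2 ^ (l a + k a) := by
    rw [pow_add]
    exact Nat.mul_le_mul_right _ (hlM a).le
  constructor
  · intro h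
    exact ⟨h1.mp h.2.1, h.2.2⟩
  · intro h
    exact ⟨lt_of_lt_of_le h.1 h2, h1.mpr h.1, h.2⟩

end Vale.Agent.P337
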