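import Mathlib
import Vale.Agent.Lib.P337.Cx.FCB
import Vale.Agent.Lib.P337.Cx.BNatMul

/-!
P337, complexity side: arithmetic.
-/

namespace Vale.Agent.P337

open Vale.Agent.Lib.Common.PolyTime

variable {α β : Type} [TEnc α] [TEnc β]

/-- substitution of two FC functions into a polynomial time function -/
theorem FC_of_PT2 {h : α → ℕ → ℕ → ℕ}
    (hh : PT (fun q : (α × BNat) × BNat => (⟨h q.1.1 q.1.2.v q.2.v⟩ : BNat)))
    {f g : α → ℕ} (hf : FC f) (hg : FC g) : FC (fun a => h a (f a) (g a)) := by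
  have hfst : PT (fun p : α × BNat => p.1) := by fun_prop
  refine FC.subst (g := fun a v => h a (f a) v) ?_ hg
  refine FC.subst (g := fun (p : α × BNat) u => h p.1 u p.2.v) ?_ (hf.pre hfst)
  have hsw : PT (fun q : (α × BNat) × BNat => ((q.1.1, q.2), q.1.2)) := by fun_prop
  exact FC.of_PT (hh.comp hsw)

/-- substitution of three FC functions into a polynomial time function -/
theorem FC_of_PT3 {h : α → ℕ → ℕ → ℕ → ℕ}
    (hh : PT (fun q : ((α × BNat) × BNat) × BNat =>
      (⟨h q.1.1.1 q.1.1.2.v q.1.2.v q.2.v⟩ : BNat)))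
    {f g k : α → ℕ} (hf : FC f) (hg : FC g) (hk : FC k) :
    FC (fun a => h a (f a) (g a) (k a)) := by
  have hfst : PT (fun p : α × BNat => p.1) := by fun_prop
  refine FC.subst (g := fun a v => h a (f a) (g a) v) ?_ hk
  refine FC_of_PT2 (α := α × BNat) (h := fun p u v => h p.1 u v p.2.v) ?_ (hf.pre hfst)
    (hg.pre hfst)
  have hsw : PT (fun q : ((α × BNat) × BNat) × BNat =>
      (((q.1.1.1, q.1.2), q.2), q.1.1.2)) := by fun_prop
  exact hh.comp hsw

theorem FC.add {f g : α → ℕ} (hf : FC f) (hg : FC g) : FC (fun a => f a + g a) :=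
  FC_of_PT2 (h := fun _ u v => u + v) (by fun_prop) hf hg

theorem FC.mul {f g : α → ℕ} (hf : FC f) (hg : FC g) : FC (fun a => f a * g a) := by
  obtain ⟨⟨l, hl, hfl⟩, -⟩ := id hf
  obtain ⟨⟨m, hm, hgm⟩, -⟩ := id hg
  have hl1 : PT (fun q : (α × BNat) × BNat => l q.1.1) :=
    hl.comp (by fun_prop : PT (fun q : (α × BNat) × BNat => q.1.1))
  have hm1 : PT (fun q : (α × BNat) × BNat => m q.1.1) :=
    hm.comp (by fun_prop : PT (fun q : (α × BNat) × BNat => q.1.1))
  have hr : PT (fun q : (α × BNat) × BNat => (⟨2 ^ (l q.1.1 + m q.1.1)⟩ : BNat)) :=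
    PT_twoPow (hl1.add hm1)
  have hx : PT (fun q : (α × BNat) × BNat => q.1.2) := by fun_prop
  have hy : PT (fun q : (α × BNat) × BNat => q.2) := by fun_prop
  have hmul := PT_bmulmod hx hy hr
  refine (FC_of_PT2 (h := fun a u v => u * v % 2 ^ (l a + m a)) hmul hf hg).congr fun a => ?_
  refine Nat.mod_eq_of_lt ?_
  rw [pow_add]
  exact Nat.mul_lt_mul'' (hfl a) (hgm a)

theorem FC.sub {f g : α → ℕ} (hf : FC f) (hg : FC g) : FC (fun a => f a - g a) :=
  FC_of_PT2 (h := fun _ u v => u - v) (by fun_prop) hf hg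

theorem FC.div {f g : α → ℕ} (hf : FC f) (hg : FC g) : FC (fun a => f a / g a) := by
  obtain ⟨⟨l, hl, hfl⟩, -⟩ := id hf
  have hfst : PT (fun p : α × BNat => p.1) := by fun_prop
  have hsnd : PT (fun p : α × BNat => p.2) := by fun_prop
  refine FC.of_lt hl (fun a => (Nat.div_le_self _ _).trans_lt (hfl a)) ?_
  have h1 : CHp (fun p : α × BNat => 0 < g p.1) := CHp.lt (FC.const 0) (hg.pre hfst)
  have h2 : CHp (fun p : α × BNat => (p.2.v + 1) * g p.1 ≤ f p.1) :=
    CHp.le (((FC.of_PT hsnd).add (FC.const 1)).mul (hg.pre hfst)) (hf.pre hfst)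
  refine (h1.and h2).congr fun p => ?_
  constructor
  · rintro ⟨h0, h⟩
    exact (Nat.le_div_iff_mul_le h0).2 h
  · intro h
    rcases Nat.eq_zero_or_pos (g p.1) with h0 | h0
    · rw [h0, Nat.div_zero] at h
      exact absurd h (Nat.not_lt_zero _)
    · exact ⟨h0, (Nat.le_div_iff_mul_le h0).1 h⟩

theorem FC.mod {f g : α → ℕ} (hf : FC f) (hg : FC g) : FC (fun a => f a % g a) :=
  (hf.sub (hg.mul (hf.div hg))).congr fun a => (Nat.mod_def _ _).symm

theorem FC.powmod {f k r : α → ℕ} (hf : FC f) (hk : FC k) (hr : FC r) :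
    FC (fun a => if r a = 0 then 0 else f a ^ k a % r a) := by
  refine FC_of_PT3 (h := fun _ u v w => if w = 0 then 0 else u ^ v % w) ?_ hf hk hr
  have hx : PT (fun q : ((α × BNat) × BNat) × BNat => q.1.1.2) := by fun_prop
  have hy : PT (fun q : ((α × BNat) × BNat) × BNat => q.1.2) := by fun_prop
  have hz : PT (fun q : ((α × BNat) × BNat) × BNat => q.2) := by fun_prop
  exact PT_bpowmod hx hy hz

/-- powers with unary exponents -/
theorem FC.powUnary {f k : α → ℕ} (hf : FC f) (hk : PT k) : FC (fun a => f a ^ k a) := by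
  obtain ⟨⟨l, hl, hfl⟩, -⟩ := id hf
  have hr : FC (fun a => 2 ^ (l a * k a + 1)) := FC.twoPow (by fun_prop)
  refine (FC.powmod hf (FC.of_PTnat hk) hr).congr fun a => ?_
  have h0 : 2 ^ (l a * k a + 1) ≠ 0 := by positivity
  rw [if_neg h0]
  refine Nat.mod_eq_of_lt ?_
  calc f a ^ k a ≤ (2 ^ l a) ^ k a := Nat.pow_le_pow_left (hfl a).le _
    _ = 2 ^ (l a * k a) := (pow_mul _ _ _).symm
    _ < 2 ^ (l a * k a + 1) := Nat.pow_lt_pow_right (by norm_num) (Nat.lt_succ_self _)

theorem fcc_prime_iff (r : ℕ) : r.Prime ↔ 2 ≤ r ∧ ∀ x < r, ∀ y < r, x * y ≠ r := by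
  constructor
  · intro h
    refine ⟨h.two_le, fun x hx y hy hxy => ?_⟩
    rcases (Nat.dvd_prime h).1 ⟨y, hxy.symm⟩ with h1 | h1
    · rw [h1, one_mul] at hxy
      omega
    · omega
  · rintro ⟨h2, h⟩
    rw [Nat.prime_def_lt]
    refine ⟨h2, fun m hm hmr => ?_⟩
    obtain ⟨c, hc⟩ := hmr
    by_contra h1
    have hm0 : m ≠ 0 := by
      rintro rfl
      rw [zero_mul] at hc
      omega
    have hc0 : 0 < c := by
      rcases Nat.eq_zero_or_pos c with h3 | h3
      · rw [h3, mul_zero] at hc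
        omega
      · exact h3
    have hcr : c < r := by
      rw [hc]
      have : 2 ≤ m := by omega
      nlinarith
    exact h m hm c hcr hc.symm

theorem CHp.prime {r : α → ℕ} (hr : FC r) : CHp (fun a => (r a).Prime) := by
  have hfst : PT (fun p : α × BNat => p.1) := by fun_prop
  have hq11 : PT (fun q : (α × BNat) × BNat => q.1.1) := by fun_prop
  have hq12 : PT (fun q : (α × BNat) × BNat => q.1.2) := by fun_prop
  have hq2 : PT (fun q : (α × BNat) × BNat => q.2) := by fun_prop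
  have h1 : CHp (fun q : (α × BNat) × BNat => q.1.2.v * q.2.v ≠ r q.1.1) :=
    (CHp.eq ((FC.of_PT hq12).mul (FC.of_PT hq2)) (hr.pre hq11)).not
  have h2 : CHp (fun p : α × BNat => ∀ y < r p.1, p.2.v * y ≠ r p.1) :=
    CHp.forall_lt (B := fun (p : α × BNat) y => p.2.v * y ≠ r p.1) (hr.pre hfst) h1
  have h3 : CHp (fun a => ∀ x < r a, ∀ y < r a, x * y ≠ r a) :=
    CHp.forall_lt (B := fun a x => ∀ y < r a, x * y ≠ r a) hr h2
  exact ((CHp.le (FC.const 2) hr).and h3).congr fun a => (fcc_prime_iff (r a)).symm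

theorem CHp.dvd {f g : α → ℕ} (hf : FC f) (hg : FC g) : CHp (fun a => f a ∣ g a) :=
  (CHp.eq (hg.mod hf) (FC.const 0)).congr fun _ => (Nat.dvd_iff_mod_eq_zero).symm

end Vale.Agent.P337
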