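import Mathlib
import Vale.Agent.Lib.P337.Cx.FCC

/-!
P337, complexity side: iterated products modulo a prime, by discrete logarithms.
-/

namespace Vale.Agent.P337

open Vale.Agent.Lib.Common.PolyTime

variable {α β : Type} [TEnc α] [TEnc β]

/-! ### the least number with a property, by counting -/

private theorem fcd_least (R : ℕ) (B : ℕ → Prop) (D : DecidablePred fun v => ∀ e < v + 1, ¬ B e)
    (h : ∃ e < R, B e) :
    ((Finset.range R).filter (fun v => ∀ e < v + 1, ¬ B e)).card < R ∧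
      B ((Finset.range R).filter (fun v => ∀ e < v + 1, ¬ B e)).card := by
  classical
  have h1 : ∃ e, B e := by
    obtain ⟨e, -, h2⟩ := h
    exact ⟨e, h2⟩
  have h3 : Nat.find h1 < R := by
    obtain ⟨e, h2, h3⟩ := h
    exact lt_of_le_of_lt (Nat.find_min' h1 h3) h2
  have h4 : (Finset.range R).filter (fun v => ∀ e < v + 1, ¬ B e) = Finset.range (Nat.find h1) := by
    ext v
    simp only [Finset.mem_filter, Finset.mem_range]
    constructor
    · rintro ⟨-, h5⟩
      by_contra h6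
      exact h5 (Nat.find h1) (by omega) (Nat.find_spec h1)
    · intro h5
      refine ⟨by omega, fun e he => Nat.find_min h1 (by omega)⟩
  rw [h4, Finset.card_range]
  exact ⟨h3, Nat.find_spec h1⟩

open Classical in
/-- number of `v < R` with a property -/
private noncomputable def fcdCnt (R : ℕ) (P : ℕ → Prop) : ℕ :=
  ((Finset.range R).filter (fun v => P v)).card

/-- the least `v < R` with a property (`R` if there is none) -/
private noncomputable def fcdMin (R : ℕ) (B : ℕ → Prop) : ℕ :=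
  fcdCnt R (fun v => ∀ e < v + 1, ¬ B e)

private theorem fcdMin_spec {R : ℕ} {B : ℕ → Prop} (h : ∃ e < R, B e) :
    fcdMin R B < R ∧ B (fcdMin R B) := by
  unfold fcdMin fcdCnt
  exact fcd_least R B _ h

private theorem fcdMin_FC {R : α → ℕ} (hR : FC R) {B : α → ℕ → Prop}
    (hB : CHp (fun p : α × BNat => B p.1 p.2.v)) : FC (fun a => fcdMin (R a) (B a)) := by
  have h1 : CHp (fun q : (α × BNat) × BNat => ¬ B q.1.1 q.2.v) :=
    (hB.pre (f := fun q : (α × BNat) × BNat => (q.1.1, q.2)) (by fun_prop)).not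
  have h2 : CHp (fun p : α × BNat => ∀ e < p.2.v + 1, ¬ B p.1 e) :=
    CHp.forall_lt (M := fun p : α × BNat => p.2.v + 1)
      (B := fun (p : α × BNat) (e : ℕ) => ¬ B p.1 e)
      (FC.add (FC.of_PT (by fun_prop)) (FC.const 1)) h1
  exact FC.count hR (B := fun a v => ∀ e < v + 1, ¬ B a e) h2

/-! ### generators -/

/-- `g` generates the units modulo `r` -/
private def fcdGen (r g : ℕ) : Prop :=
  ∀ x < r, x = 0 ∨ ∃ e < r, (if r = 0 then 0 else g ^ e % r) = x

private theorem fcdGen_exists {r : ℕ} (hr : r.Prime) : ∃ g < r, fcdGen r g := by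
  have : Fact r.Prime := ⟨hr⟩
  obtain ⟨g, hg⟩ := IsCyclic.exists_monoid_generator (α := (ZMod r)ˣ)
  refine ⟨((g : (ZMod r)ˣ) : ZMod r).val, ZMod.val_lt _, ?_⟩
  intro x hx
  by_cases h0 : x = 0
  · exact Or.inl h0
  · right
    have h1 : (x : ZMod r) ≠ 0 := by
      intro h2
      rw [ZMod.natCast_eq_zero_iff] at h2
      exact h0 (Nat.eq_zero_of_dvd_of_lt h2 hx)
    obtain ⟨n, hn⟩ := hg (Units.mk0 (x : ZMod r) h1)
    have h3 : orderOf g < r := by
      have h4 := orderOf_le_card_univ (x := g)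
      rw [ZMod.card_units] at h4
      have := hr.pos
      omega
    refine ⟨n % orderOf g, lt_trans (Nat.mod_lt _ (orderOf_pos g)) h3, ?_⟩
    rw [if_neg hr.pos.ne']
    have h5 : g ^ (n % orderOf g) = Units.mk0 (x : ZMod r) h1 := by
      rw [pow_mod_orderOf]
      exact hn
    have h6 : ((g : ZMod r)) ^ (n % orderOf g) = (x : ZMod r) := by
      have h7 := congrArg (Units.val) h5
      rw [Units.val_pow_eq_pow_val, Units.val_mk0] at h7
      exact h7
    have h8 : ((((g : (ZMod r)ˣ) : ZMod r).val ^ (n % orderOf g) : ℕ) : ZMod r) = (x : ZMod r) := by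
      rw [Nat.cast_pow, ZMod.natCast_zmod_val, h6]
    rw [ZMod.natCast_eq_natCast_iff'] at h8
    rw [h8, Nat.mod_eq_of_lt hx]

private theorem fcdGen_CHp {r : α → ℕ} (hr : FC r) :
    CHp (fun p : α × BNat => fcdGen (r p.1) p.2.v) := by
  have hr1 : FC (fun p : α × BNat => r p.1) := hr.pre (by fun_prop)
  have hr2 : FC (fun q : (α × BNat) × BNat => r q.1.1) :=
    hr.pre (φ := fun q : (α × BNat) × BNat => q.1.1) (by fun_prop)
  have hr3 : FC (fun s : ((α × BNat) × BNat) × BNat => r s.1.1.1) :=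
    hr.pre (φ := fun s : ((α × BNat) × BNat) × BNat => s.1.1.1) (by fun_prop)
  have h1 : FC (fun s : ((α × BNat) × BNat) × BNat =>
      if r s.1.1.1 = 0 then 0 else s.1.1.2.v ^ s.2.v % r s.1.1.1) :=
    FC.powmod (FC.of_PT (f := fun s : ((α × BNat) × BNat) × BNat => s.1.1.2) (by fun_prop))
      (FC.of_PT (f := fun s : ((α × BNat) × BNat) × BNat => s.2) (by fun_prop)) hr3
  have h2 : CHp (fun s : ((α × BNat) × BNat) × BNat =>
      (if r s.1.1.1 = 0 then 0 else s.1.1.2.v ^ s.2.v % r s.1.1.1) = s.1.2.v) :=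
    CHp.eq h1 (FC.of_PT (f := fun s : ((α × BNat) × BNat) × BNat => s.1.2) (by fun_prop))
  have h3 : CHp (fun q : (α × BNat) × BNat =>
      ∃ e < r q.1.1, (if r q.1.1 = 0 then 0 else q.1.2.v ^ e % r q.1.1) = q.2.v) :=
    CHp.exists_lt (B := fun (q : (α × BNat) × BNat) (e : ℕ) =>
      (if r q.1.1 = 0 then 0 else q.1.2.v ^ e % r q.1.1) = q.2.v) hr2 h2
  have h4 : CHp (fun q : (α × BNat) × BNat => q.2.v = 0) :=
    CHp.eq (FC.of_PT (f := fun q : (α × BNat) × BNat => q.2) (by fun_prop)) (FC.const 0)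
  exact CHp.forall_lt (M := fun p : α × BNat => r p.1) (B := fun (p : α × BNat) (x : ℕ) =>
    x = 0 ∨ ∃ e < r p.1, (if r p.1 = 0 then 0 else p.2.v ^ e % r p.1) = x) hr1 (h4.or h3)

/-! ### the product through discrete logarithms -/

private theorem fcd_prod {r : ℕ} (hr : r.Prime) {g : ℕ} (M : ℕ) (F : ℕ → ℕ)
    (hg : fcdGen r g) (h0 : ¬ ∃ v < M, F v % r = 0) :
    g ^ (∑ v ∈ Finset.range M,
      fcdMin r (fun e => (if r = 0 then 0 else g ^ e % r) = F v % r)) % r =
      (∏ v ∈ Finset.range M, F v) % r := by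
  have h1 : ∀ v < M, g ^ fcdMin r (fun e => (if r = 0 then 0 else g ^ e % r) = F v % r) ≡ F v
      [MOD r] := by
    intro v hv
    have h2 : ∃ e < r, (if r = 0 then 0 else g ^ e % r) = F v % r := by
      rcases hg (F v % r) (Nat.mod_lt _ hr.pos) with h3 | h3
      · exact absurd ⟨v, hv, h3⟩ h0
      · exact h3
    have h4 := (fcdMin_spec h2).2
    rw [if_neg hr.pos.ne'] at h4
    exact h4
  have h5 : ∀ n ≤ M, g ^ (∑ v ∈ Finset.range n,
      fcdMin r (fun e => (if r = 0 then 0 else g ^ e % r) = F v % r)) ≡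
      ∏ v ∈ Finset.range n, F v [MOD r] := by
    intro n
    induction n with
    | zero =>
      intro _
      simp [Nat.ModEq.refl]
    | succ n ih =>
      intro hn
      rw [Finset.sum_range_succ, Finset.prod_range_succ, pow_add]
      exact (ih (by omega)).mul (h1 n (by omega))
  exact h5 M le_rfl

/-- iterated products modulo a prime -/
theorem FC.prodMod {M r : α → ℕ} (hM : FC M) (hr : FC r) {F : α → ℕ → ℕ}
    (hF : FC (fun p : α × BNat => F p.1 p.2.v)) :
    FC (fun a => if (r a).Prime then (∏ v ∈ Finset.range (M a), F a v) % r a else 0) := by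
  classical
  have hr1 : FC (fun p : α × BNat => r p.1) := hr.pre (by fun_prop)
  have hr2 : FC (fun q : (α × BNat) × BNat => r q.1.1) :=
    hr.pre (φ := fun q : (α × BNat) × BNat => q.1.1) (by fun_prop)
  have hgen : FC (fun a => fcdMin (r a) (fcdGen (r a))) :=
    fcdMin_FC (B := fun a g => fcdGen (r a) g) hr (fcdGen_CHp hr)
  have hgen2 : FC (fun q : (α × BNat) × BNat => fcdMin (r q.1.1) (fcdGen (r q.1.1))) :=
    hgen.pre (φ := fun q : (α × BNat) × BNat => q.1.1) (by fun_prop)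
  have hF1 : FC (fun p : α × BNat => F p.1 p.2.v % r p.1) := hF.mod hr1
  have hF2 : FC (fun q : (α × BNat) × BNat => F q.1.1 q.1.2.v % r q.1.1) :=
    hF1.pre (φ := fun q : (α × BNat) × BNat => q.1) (by fun_prop)
  have h1 : FC (fun q : (α × BNat) × BNat => if r q.1.1 = 0 then 0 else
      fcdMin (r q.1.1) (fcdGen (r q.1.1)) ^ q.2.v % r q.1.1) :=
    FC.powmod hgen2 (FC.of_PT (f := fun q : (α × BNat) × BNat => q.2) (by fun_prop)) hr2
  have hlog : FC (fun p : α × BNat => fcdMin (r p.1) (fun e => (if r p.1 = 0 then 0 else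
      fcdMin (r p.1) (fcdGen (r p.1)) ^ e % r p.1) = F p.1 p.2.v % r p.1)) :=
    fcdMin_FC (B := fun (p : α × BNat) (e : ℕ) => (if r p.1 = 0 then 0 else
      fcdMin (r p.1) (fcdGen (r p.1)) ^ e % r p.1) = F p.1 p.2.v % r p.1) hr1 (CHp.eq h1 hF2)
  have hsum : FC (fun a => ∑ v ∈ Finset.range (M a), fcdMin (r a) (fun e => (if r a = 0 then 0 else
      fcdMin (r a) (fcdGen (r a)) ^ e % r a) = F a v % r a)) :=
    FC.sum hM (F := fun (a : α) (v : ℕ) => fcdMin (r a) (fun e => (if r a = 0 then 0 else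
      fcdMin (r a) (fcdGen (r a)) ^ e % r a) = F a v % r a)) hlog
  have hpow := FC.powmod hgen hsum hr
  have hzero : CHp (fun a => ∃ v < M a, F a v % r a = 0) :=
    CHp.exists_lt (B := fun (a : α) (v : ℕ) => F a v % r a = 0) hM (CHp.eq hF1 (FC.const 0))
  have hfin := FC.ite (CHp.prime hr) (FC.ite hzero (FC.const 0) hpow) (FC.const 0)
  refine hfin.congr fun a => ?_
  by_cases hp : (r a).Prime
  · rw [if_pos hp, if_pos hp]
    by_cases hz : ∃ v < M a, F a v % r a = 0
    · rw [if_pos hz]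
      obtain ⟨v, hv, h2⟩ := hz
      symm
      exact Nat.mod_eq_zero_of_dvd (dvd_trans (Nat.dvd_of_mod_eq_zero h2)
        (Finset.dvd_prod_of_mem _ (Finset.mem_range.2 hv)))
    · rw [if_neg hz, if_neg hp.pos.ne']
      exact fcd_prod hp (M a) (F a) (fcdMin_spec (fcdGen_exists hp)).2 hz
  · rw [if_neg hp, if_neg hp]

end Vale.Agent.P337
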