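import Mathlib
import Vale.Agent.Lib.P337.Cx.FCD
import Vale.Agent.Lib.P337.Form

/-!
P337, complexity side: functions with values in `ZMod r` computable in the counting hierarchy.
-/

namespace Vale.Agent.P337

open Vale.Agent.Lib.Common.PolyTime

variable {α β : Type} [TEnc α] [TEnc β]

variable {r : α → ℕ}

/-- `ZMod r`-valued functions computable in the counting hierarchy (for `r` prime) -/
def FCz (r : α → ℕ) (F : ∀ a, ZMod (r a)) : Prop :=
  FC (fun a => if (r a).Prime then (F a).val else 0)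

/-- the entries of a list of numbers, `0` beyond the end -/
def vec (l : List BNat) : ℕ → ℕ := fun i => (l.getD i ⟨0⟩).v

theorem FCz.congr {F G : ∀ a, ZMod (r a)} (hF : FCz r F) (h : ∀ a, (r a).Prime → F a = G a) :
    FCz r G := by
  refine FC.congr hF ?_
  intro a
  by_cases hp : (r a).Prime
  · rw [if_pos hp, if_pos hp, h a hp]
  · rw [if_neg hp, if_neg hp]

theorem FCz.pre {F : ∀ a, ZMod (r a)} (hF : FCz r F) {φ : β → α} (hφ : PT φ) :
    FCz (fun b => r (φ b)) (fun b => F (φ b)) :=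
  FC.pre hF hφ

/-- the standard way to prove `FCz`: a formula for the value at prime `r` -/
theorem FCz_of_val (hr : FC r) {F : ∀ a, ZMod (r a)} {f : α → ℕ} (hf : FC f)
    (h : ∀ a, (r a).Prime → (F a).val = f a) : FCz r F := by
  refine FC.congr (FC.ite (CHp.prime hr) hf (FC.const 0)) ?_
  intro a
  by_cases hp : (r a).Prime
  · rw [if_pos hp, if_pos hp, h a hp]
  · rw [if_neg hp, if_neg hp]

theorem FCz.cast (hr : FC r) {f : α → ℕ} (hf : FC f) : FCz r (fun a => ((f a : ℕ) : ZMod (r a))) :=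
  FCz_of_val hr (FC.mod hf hr) (fun a _ => ZMod.val_natCast (r a) (f a))

theorem FCz.add (hr : FC r) {F G : ∀ a, ZMod (r a)} (hF : FCz r F) (hG : FCz r G) :
    FCz r (fun a => F a + G a) := by
  refine FCz_of_val hr (FC.mod (FC.add hF hG) hr) (fun a hp => ?_)
  have : NeZero (r a) := ⟨hp.ne_zero⟩
  rw [ZMod.val_add, if_pos hp, if_pos hp]

theorem FCz.neg (hr : FC r) {F : ∀ a, ZMod (r a)} (hF : FCz r F) : FCz r (fun a => -F a) := by
  refine FCz_of_val hr (FC.mod (FC.sub hr hF) hr) (fun a hp => ?_)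
  have : NeZero (r a) := ⟨hp.ne_zero⟩
  rw [ZMod.neg_val', if_pos hp]

theorem FCz.sub (hr : FC r) {F G : ∀ a, ZMod (r a)} (hF : FCz r F) (hG : FCz r G) :
    FCz r (fun a => F a - G a) :=
  FCz.congr (FCz.add hr hF (FCz.neg hr hG)) (fun a _ => (sub_eq_add_neg (F a) (G a)).symm)

theorem FCz.mul (hr : FC r) {F G : ∀ a, ZMod (r a)} (hF : FCz r F) (hG : FCz r G) :
    FCz r (fun a => F a * G a) := by
  refine FCz_of_val hr (FC.mod (FC.mul hF hG) hr) (fun a hp => ?_)
  rw [ZMod.val_mul, if_pos hp, if_pos hp]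

theorem FCz.inv (hr : FC r) {F : ∀ a, ZMod (r a)} (hF : FCz r F) : FCz r (fun a => (F a)⁻¹) := by
  have h0 : CHp (fun a => (if (r a).Prime then (F a).val else 0) = 0) :=
    CHp.eq hF (FC.const 0)
  have h1 := FC.powmod hF (FC.sub hr (FC.const 2)) hr
  refine FCz_of_val hr (FC.ite h0 (FC.const 0) h1) (fun a hp => ?_)
  have : Fact (r a).Prime := ⟨hp⟩
  have hr0 : r a ≠ 0 := hp.ne_zero
  rw [if_neg hr0, if_pos hp]
  by_cases hx : F a = 0
  · rw [hx, inv_zero, ZMod.val_zero, if_pos rfl]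
  · have hv : (F a).val ≠ 0 := fun h => hx ((ZMod.val_eq_zero (F a)).1 h)
    rw [if_neg hv]
    have h2 : (F a)⁻¹ = F a ^ (r a - 2) := by
      have h3 : F a * F a ^ (r a - 2) = 1 := by
        rw [← pow_succ', ← ZMod.pow_card_sub_one_eq_one hx]
        congr 1
        have := hp.two_le
        omega
      exact (eq_inv_of_mul_eq_one_right h3).symm
    have h4 : F a ^ (r a - 2) = (((F a).val ^ (r a - 2) : ℕ) : ZMod (r a)) := by
      rw [Nat.cast_pow, ZMod.natCast_zmod_val]
    rw [h2, h4, ZMod.val_natCast]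

open Classical in
theorem FCz.ite {c : α → Prop} (hc : CHp c) {F G : ∀ a, ZMod (r a)} (hF : FCz r F)
    (hG : FCz r G) : FCz r (fun a => if c a then F a else G a) := by
  refine FC.congr (FC.ite hc hF hG) ?_
  intro a
  by_cases h : c a
  · simp [h]
  · simp [h]

/-- the value as a natural number, for prime `r` -/
theorem FCz.val {F : ∀ a, ZMod (r a)} (hF : FCz r F) :
    FC (fun a => if (r a).Prime then (F a).val else 0) := hF

theorem FCz.subst {F : ∀ a, ℕ → ZMod (r a)}
    (hF : FCz (fun p : α × BNat => r p.1) (fun p => F p.1 p.2.v)) {f : α → ℕ} (hf : FC f) :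
    FCz r (fun a => F a (f a)) :=
  FC.subst (g := fun a v => if (r a).Prime then (F a v).val else 0) hF hf

end Vale.Agent.P337
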