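import Mathlib
import Vale.Agent.Lib.P337.Cx.FCz

/-!
P337, complexity side: powers, sums and products with values in `ZMod r`.
-/

namespace Vale.Agent.P337

open Vale.Agent.Lib.Common.PolyTime

variable {α β : Type} [TEnc α] [TEnc β]

variable {r : α → ℕ}

theorem FCz.pow (hr : FC r) {F : ∀ a, ZMod (r a)} (hF : FCz r F) {k : α → ℕ} (hk : FC k) :
    FCz r (fun a => F a ^ k a) := by
  classical
  unfold FCz at hF ⊢
  have h1 := FC.powmod hF hk hr
  have h2 := FC.ite (CHp.prime hr) h1 (FC.const 0)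
  refine h2.congr fun a => ?_
  by_cases hp : (r a).Prime
  · have : NeZero (r a) := ⟨hp.ne_zero⟩
    rw [if_pos hp, if_pos hp, if_pos hp, if_neg hp.ne_zero]
    have h3 : F a ^ k a = (((F a).val ^ k a : ℕ) : ZMod (r a)) := by
      rw [Nat.cast_pow, ZMod.natCast_zmod_val]
    dsimp only
    rw [h3, ZMod.val_natCast]
  · rw [if_neg hp, if_neg hp]

theorem FCz.sum_range (hr : FC r) {M : α → ℕ} (hM : FC M) {F : ∀ a, ℕ → ZMod (r a)}
    (hF : FCz (fun p : α × BNat => r p.1) (fun p => F p.1 p.2.v)) :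
    FCz r (fun a => ∑ i ∈ Finset.range (M a), F a i) := by
  classical
  unfold FCz at hF ⊢
  have h1 := FC.sum hM (F := fun a v => if (r a).Prime then (F a v).val else 0) hF
  have h2 := FC.ite (CHp.prime hr) (FC.mod h1 hr) (FC.const 0)
  refine h2.congr fun a => ?_
  by_cases hp : (r a).Prime
  · have : NeZero (r a) := ⟨hp.ne_zero⟩
    rw [if_pos hp, if_pos hp]
    have h3 : ∑ i ∈ Finset.range (M a), F a i =
        ((∑ i ∈ Finset.range (M a), (if (r a).Prime then (F a i).val else 0) : ℕ) :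
          ZMod (r a)) := by
      rw [Nat.cast_sum]
      refine Finset.sum_congr rfl fun i _ => ?_
      rw [if_pos hp, ZMod.natCast_zmod_val]
    dsimp only
    rw [h3, ZMod.val_natCast]
  · rw [if_neg hp, if_neg hp]

theorem FCz.prod_range (hr : FC r) {M : α → ℕ} (hM : FC M) {F : ∀ a, ℕ → ZMod (r a)}
    (hF : FCz (fun p : α × BNat => r p.1) (fun p => F p.1 p.2.v)) :
    FCz r (fun a => ∏ i ∈ Finset.range (M a), F a i) := by
  unfold FCz at hF ⊢
  have h1 := FC.prodMod hM hr (F := fun a v => if (r a).Prime then (F a v).val else 0) hF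
  refine h1.congr fun a => ?_
  by_cases hp : (r a).Prime
  · have : NeZero (r a) := ⟨hp.ne_zero⟩
    rw [if_pos hp, if_pos hp]
    have h3 : ∏ i ∈ Finset.range (M a), F a i =
        ((∏ i ∈ Finset.range (M a), (if (r a).Prime then (F a i).val else 0) : ℕ) :
          ZMod (r a)) := by
      rw [Nat.cast_prod]
      refine Finset.prod_congr rfl fun i _ => ?_
      rw [if_pos hp, ZMod.natCast_zmod_val]
    dsimp only
    rw [h3, ZMod.val_natCast]
  · rw [if_neg hp, if_neg hp]

theorem FCz.sum_Ico (hr : FC r) {L M : α → ℕ} (hL : FC L) (hM : FC M) {F : ∀ a, ℕ → ZMod (r a)}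
    (hF : FCz (fun p : α × BNat => r p.1) (fun p => F p.1 p.2.v)) :
    FCz r (fun a => ∑ i ∈ Finset.Ico (L a) (M a), F a i) := by
  classical
  have hr1 : FC (fun p : α × BNat => r p.1) := hr.pre (by fun_prop)
  have hc : CHp (fun p : α × BNat => L p.1 ≤ p.2.v) :=
    CHp.le (hL.pre (φ := fun p : α × BNat => p.1) (by fun_prop))
      (FC.of_PT (f := fun p : α × BNat => p.2) (by fun_prop))
  have h0 : FCz (fun p : α × BNat => r p.1) (fun _ => 0) :=
    (FCz.cast hr1 (FC.const 0)).congr fun p _ => Nat.cast_zero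
  have h1 := FCz.ite hc hF h0
  have h2 := FCz.sum_range hr hM (F := fun a i => if L a ≤ i then F a i else 0)
    (h1.congr fun p _ => by congr)
  refine h2.congr fun a _ => ?_
  rw [← Finset.sum_filter]
  refine Finset.sum_congr ?_ fun _ _ => rfl
  ext i
  simp only [Finset.mem_filter, Finset.mem_range, Finset.mem_Ico]
  tauto

/-- sums over a unary range, the index being available in unary -/
theorem FCz.sum_unary (hr : FC r) {M : α → ℕ} (hM : PT M) {F : ∀ a, ℕ → ZMod (r a)}
    (hF : FCz (fun p : α × ℕ => r p.1) (fun p => F p.1 p.2)) :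
    FCz r (fun a => ∑ i ∈ Finset.range (M a), F a i) := by
  have h1 : FCz (fun p : α × BNat => r p.1) (fun p => F p.1 (min p.2.v (M p.1))) :=
    hF.pre (φ := fun p : α × BNat => (p.1, min p.2.v (M p.1))) (by fun_prop)
  have h2 := FCz.sum_range hr (FC.of_PTnat hM) (F := fun a i => F a (min i (M a))) h1
  refine h2.congr fun a _ => ?_
  refine Finset.sum_congr rfl fun i hi => ?_
  rw [min_eq_left (Finset.mem_range.1 hi).le]

theorem FCz.prod_unary (hr : FC r) {M : α → ℕ} (hM : PT M) {F : ∀ a, ℕ → ZMod (r a)}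
    (hF : FCz (fun p : α × ℕ => r p.1) (fun p => F p.1 p.2)) :
    FCz r (fun a => ∏ i ∈ Finset.range (M a), F a i) := by
  have h1 : FCz (fun p : α × BNat => r p.1) (fun p => F p.1 (min p.2.v (M p.1))) :=
    hF.pre (φ := fun p : α × BNat => (p.1, min p.2.v (M p.1))) (by fun_prop)
  have h2 := FCz.prod_range hr (FC.of_PTnat hM) (F := fun a i => F a (min i (M a))) h1
  refine h2.congr fun a _ => ?_
  refine Finset.prod_congr rfl fun i hi => ?_
  rw [min_eq_left (Finset.mem_range.1 hi).le]

/-- doubly exponential numbers modulo `r` -/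
theorem FCz.twoTwoPow (hr : FC r) {E : α → ℕ} (hE : PT E) :
    FCz r (fun a => ((2 ^ 2 ^ E a : ℕ) : ZMod (r a))) := by
  have h1 := FCz.pow hr (FCz.cast hr (FC.const 2)) (FC.twoPow hE)
  refine h1.congr fun a _ => ?_
  rw [Nat.cast_pow]

end Vale.Agent.P337
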