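import Mathlib
import Vale.Agent.Lib.P337.Cx.FCzB

/-!
P337, complexity side: sums over vectors.
-/

namespace Vale.Agent.P337

open Vale.Agent.Lib.Common.PolyTime

variable {α β : Type} [TEnc α] [TEnc β]

variable {r : α → ℕ}

namespace FCzVecAux

theorem bval_drop (l : List Bool) (k : ℕ) : bval (l.drop k) = bval l / 2 ^ k := by
  induction k generalizing l with
  | zero => simp
  | succ k ih =>
    cases l with
    | nil => simp [bval]
    | cons b l =>
      rw [List.drop_succ_cons, ih, pow_succ', ← Nat.div_div_eq_div_mul]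
      congr 1
      show bval l = (b.toNat + 2 * bval l) / 2
      have := Bool.toNat_lt b
      omega

theorem bval_take (l : List Bool) (k : ℕ) : bval (l.take k) = bval l % 2 ^ k := by
  induction k generalizing l with
  | zero => simp [bval, Nat.mod_one]
  | succ k ih =>
    cases l with
    | nil => simp [bval]
    | cons b l =>
      rw [List.take_succ_cons]
      show b.toNat + 2 * bval (l.take k) = (b.toNat + 2 * bval l) % 2 ^ (k + 1)
      rw [ih, pow_succ', Nat.mod_mul]
      have hb := Bool.toNat_lt b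
      have h1 : (b.toNat + 2 * bval l) % 2 = b.toNat := by omega
      have h2 : (b.toNat + 2 * bval l) / 2 = bval l := by omega
      rw [h1, h2]

/-- the vector coded by a number -/
def dec (m N v : ℕ) : List BNat :=
  (List.range N).map fun i => ⟨v / (2 ^ m) ^ i % 2 ^ m⟩

theorem dec_eq (m N v : ℕ) : dec m N v =
    (List.range N).map fun i => ⟨bval (((Nat.bits v).drop (m * i)).take m)⟩ := by
  unfold dec
  refine List.map_congr_left fun i _ => ?_
  rw [bval_take, bval_drop, bval_bits, pow_mul]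

theorem vec_dec (m N v i : ℕ) :
    vec (dec m N v) i = if i < N then v / (2 ^ m) ^ i % 2 ^ m else 0 := by
  unfold vec dec
  rw [List.getD_eq_getElem?_getD, List.getElem?_map]
  by_cases h : i < N
  · rw [List.getElem?_range h, if_pos h]
    rfl
  · rw [if_neg h, List.getElem?_eq_none (by rw [List.length_range]; omega)]
    rfl

theorem PT_dec {m N : α → ℕ} (hm : PT m) (hN : PT N) {v : α → BNat} (hv : PT v) :
    PT (fun a => dec (m a) (N a) (v a).v) := by
  have h : (fun a => dec (m a) (N a) (v a).v) = fun a => (List.range (N a)).map fun i =>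
      (⟨bval (((Nat.bits (v a).v).drop (m a * i)).take (m a))⟩ : BNat) := by
    funext a
    exact dec_eq _ _ _
  rw [h]
  refine PT.map (f := fun a i =>
    (⟨bval (((Nat.bits (v a).v).drop (m a * i)).take (m a))⟩ : BNat)) ?_ (PT.range hN)
  have hm' : PT (fun p : α × ℕ => m p.1) := hm.comp (PT.fst PT.id)
  have hv' : PT (fun p : α × ℕ => v p.1) := hv.comp (PT.fst PT.id)
  exact PT_ofBits (PT.take (PT.drop (PT_bits hv') (PT.mul hm' (PT.snd PT.id))) hm')

/-- the entries of the vector coded by `v` are in `[lo, hi)` -/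
def Good (m N lo hi v : ℕ) : Prop :=
  ∀ i < N, lo ≤ vec (dec m N v) i ∧ vec (dec m N v) i < hi

open Classical in
theorem sum_eq {A : Type} [AddCommMonoid A] (m N lo hi : ℕ) (h : hi ≤ 2 ^ m)
    (f : (ℕ → ℕ) → A) :
    ∑ v ∈ Finset.range ((2 ^ m) ^ N),
      (if Good m N lo hi v then f (vec (dec m N v)) else 0) =
    ∑ z ∈ Fintype.piFinset (fun _ : Fin N => Finset.Ico lo hi), f (Prm.ext z) := by
  rw [Finset.sum_range, ← Equiv.sum_comp (finFunctionFinEquiv (m := 2 ^ m) (n := N))]
  have key : ∀ w : Fin N → Fin (2 ^ m), vec (dec m N (finFunctionFinEquiv w : Fin _)) =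
      Prm.ext (fun i => (w i : ℕ)) := by
    intro w
    funext i
    rw [vec_dec]
    unfold Prm.ext
    by_cases hi' : i < N
    · rw [if_pos hi', dif_pos hi']
      have h1 : (finFunctionFinEquiv.symm (finFunctionFinEquiv w)) ⟨i, hi'⟩ = w ⟨i, hi'⟩ := by
        rw [Equiv.symm_apply_apply]
      exact congrArg Fin.val h1
    · rw [if_neg hi', dif_neg hi']
  have key2 : ∀ w : Fin N → Fin (2 ^ m),
      Good m N lo hi (finFunctionFinEquiv w : Fin _) ↔
        ∀ i : Fin N, (w i : ℕ) ∈ Finset.Ico lo hi := by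
    intro w
    unfold Good
    rw [key]
    constructor
    · intro hw i
      have h1 := hw i i.2
      have h2 : Prm.ext (fun i => (w i : ℕ)) i = (w i : ℕ) := by
        unfold Prm.ext
        rw [dif_pos i.2]
      rw [h2] at h1
      exact Finset.mem_Ico.2 h1
    · intro hw i hi'
      have h2 : Prm.ext (fun i => (w i : ℕ)) i = (w ⟨i, hi'⟩ : ℕ) := by
        unfold Prm.ext
        rw [dif_pos hi']
      rw [h2]
      exact Finset.mem_Ico.1 (hw ⟨i, hi'⟩)
  simp only [key2, key]
  rw [← Finset.sum_filter]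
  refine Finset.sum_bij' (i := fun w _ => fun i => (w i : ℕ))
    (j := fun z hz => fun i => ⟨z i, lt_of_lt_of_le
      (Finset.mem_Ico.1 (Fintype.mem_piFinset.1 hz i)).2 h⟩) ?_ ?_ ?_ ?_ ?_
  · intro w hw
    exact Fintype.mem_piFinset.2 (Finset.mem_filter.1 hw).2
  · intro z hz
    exact Finset.mem_filter.2 ⟨Finset.mem_univ _, fun i => Fintype.mem_piFinset.1 hz i⟩
  · intro w _
    rfl
  · intro z _
    rfl
  · intro w _
    rfl

end FCzVecAux

theorem FC.vec {l : α → List BNat} (hl : PT l) {i : α → ℕ} (hi : FC i) :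
    FC (fun a => vec (l a) (i a)) := by
  refine FC.subst (g := fun a n => Vale.Agent.P337.vec (l a) n) ?_ hi
  have hl' : PT (fun p : α × BNat => l p.1) := hl.comp (PT.fst PT.id)
  have h1 : PT (fun p : α × BNat => (l p.1).getD (min p.2.v (l p.1).length) ⟨0⟩) :=
    PT.getD hl' (PT_cap (PT.snd PT.id) (PT.length hl')) (PT.const _)
  refine (FC.of_PT h1).congr fun p => ?_
  unfold Vale.Agent.P337.vec
  rcases Nat.lt_or_ge p.2.v (l p.1).length with h | h
  · rw [min_eq_left h.le]
  · rw [min_eq_right h, List.getD_eq_default _ _ h, List.getD_eq_default _ _ le_rfl]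

/-- sums over vectors of numbers, represented by lists -/
theorem FCz.sum_vec (hr : FC r) {N : α → ℕ} (hN : PT N) {lo hi : α → ℕ} (hlo : FC lo)
    (hhi : FC hi) {F : ∀ a, (ℕ → ℕ) → ZMod (r a)}
    (hF : FCz (fun p : α × List BNat => r p.1) (fun p => F p.1 (vec p.2))) :
    FCz r (fun a => ∑ z ∈ Fintype.piFinset (fun _ : Fin (N a) => Finset.Ico (lo a) (hi a)),
      F a (Prm.ext z)) := by
  classical
  obtain ⟨⟨m, hm, hlt⟩, hhi'⟩ := id hhi
  have hm' : PT (fun p : α × BNat => m p.1) := hm.comp (PT.fst PT.id)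
  have hN' : PT (fun p : α × BNat => N p.1) := hN.comp (PT.fst PT.id)
  have hdec : PT (fun p : α × BNat => FCzVecAux.dec (m p.1) (N p.1) p.2.v) :=
    FCzVecAux.PT_dec hm' hN' (PT.snd PT.id)
  have hr' : FC (fun p : α × BNat => r p.1) := hr.pre (PT.fst PT.id)
  -- the summand
  have hG : FCz (fun p : α × BNat => r p.1)
      (fun p => F p.1 (vec (FCzVecAux.dec (m p.1) (N p.1) p.2.v))) :=
    FCz.pre (r := fun p : α × List BNat => r p.1) (F := fun p => F p.1 (vec p.2)) hF
      (φ := fun p : α × BNat => (p.1, FCzVecAux.dec (m p.1) (N p.1) p.2.v))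
      (PT.pair (PT.fst PT.id) hdec)
  have hzero : FCz (fun p : α × BNat => r p.1) (fun p => (0 : ZMod (r p.1))) :=
    (FCz.cast hr' (FC.const 0)).congr fun p _ => Nat.cast_zero
  -- the condition
  have hdec2 : PT (fun p : (α × BNat) × BNat => FCzVecAux.dec (m p.1.1) (N p.1.1) p.1.2.v) :=
    hdec.comp (PT.fst PT.id)
  have hidx : FC (fun p : (α × BNat) × BNat => p.2.v) := FC.of_PT (PT.snd PT.id)
  have hv2 : FC (fun p : (α × BNat) × BNat =>
      vec (FCzVecAux.dec (m p.1.1) (N p.1.1) p.1.2.v) p.2.v) := FC.vec hdec2 hidx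
  have hlo2 : FC (fun p : (α × BNat) × BNat => lo p.1.1) := hlo.pre (PT.fst (PT.fst PT.id))
  have hhi2 : FC (fun p : (α × BNat) × BNat => hi p.1.1) := hhi.pre (PT.fst (PT.fst PT.id))
  have hc : CHp (fun p : α × BNat =>
      FCzVecAux.Good (m p.1) (N p.1) (lo p.1) (hi p.1) p.2.v) :=
    CHp.forall_lt (M := fun p : α × BNat => N p.1) (FC.of_PTnat hN')
      (B := fun p i => lo p.1 ≤ vec (FCzVecAux.dec (m p.1) (N p.1) p.2.v) i ∧
        vec (FCzVecAux.dec (m p.1) (N p.1) p.2.v) i < hi p.1)
      ((CHp.le hlo2 hv2).and (CHp.lt hv2 hhi2))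
  have hM : FC (fun a => (2 ^ m a) ^ N a) :=
    (FC.twoPow (PT.mul hm hN)).congr fun a => by rw [pow_mul]
  have hS := FCz.sum_range hr hM (F := fun a v =>
    if FCzVecAux.Good (m a) (N a) (lo a) (hi a) v then
      F a (vec (FCzVecAux.dec (m a) (N a) v)) else 0) (FCz.ite hc hG hzero)
  refine hS.congr fun a _ => ?_
  have h1 := FCzVecAux.sum_eq (m a) (N a) (lo a) (hi a) (hlt a).le (F a)
  rw [← h1]

end Vale.Agent.P337
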