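import Mathlib
import Vale.Agent.Lib.P337.Cx.FCzVec

/-!
P337, complexity side: determinants.
-/

namespace Vale.Agent.P337

open Vale.Agent.Lib.Common.PolyTime

variable {α β : Type} [TEnc α] [TEnc β]

variable {r : α → ℕ}

namespace FCzDetAux

open Finset

/-- sign of an ordered pair -/
def sg (R : Type) [CommRing R] (x y : ℕ) : R := if x < y then 1 else if x = y then 0 else -1

/-- the summand of the determinant -/
def term (R : Type) [CommRing R] (N : ℕ) (A : ℕ → ℕ → R) (z : ℕ → ℕ) : R :=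
  ∏ j ∈ range N, ((∏ i ∈ range N, if i < j then sg R (z i) (z j) else 1) * A j (min (z j) N))

theorem sg_self (R : Type) [CommRing R] (x : ℕ) : sg R x x = 0 := by
  unfold sg
  rw [if_neg (lt_irrefl x), if_pos rfl]

theorem sg_ne (R : Type) [CommRing R] {x y : ℕ} (h : x ≠ y) :
    sg R x y = if x < y then 1 else -1 := by
  unfold sg
  rw [if_neg h]

theorem ext_fin {N : ℕ} (z : Fin N → ℕ) (i : Fin N) : Prm.ext z i = z i := by
  unfold Prm.ext
  rw [dif_pos i.2]

theorem term_ext (R : Type) [CommRing R] {N : ℕ} (A : ℕ → ℕ → R) (z : Fin N → ℕ)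
    (hz : ∀ i, z i < N) : term R N A (Prm.ext z) =
      ∏ j : Fin N, ((∏ i : Fin N, if i < j then sg R (z i) (z j) else 1) * A j (z j)) := by
  unfold term
  rw [Finset.prod_range]
  refine Finset.prod_congr rfl fun j _ => ?_
  rw [Finset.prod_range, ext_fin, min_eq_left (hz j).le]
  congr 1
  refine Finset.prod_congr rfl fun i _ => ?_
  rw [ext_fin]
  rfl

theorem term_zero (R : Type) [CommRing R] {N : ℕ} (A : ℕ → ℕ → R) (z : Fin N → ℕ)
    (hz : ∀ i, z i < N) {i j : Fin N} (hij : i < j) (h : z i = z j) :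
    term R N A (Prm.ext z) = 0 := by
  rw [term_ext R A z hz]
  apply Finset.prod_eq_zero (Finset.mem_univ j)
  have h1 : (∏ i : Fin N, if i < j then sg R (z i) (z j) else 1) = 0 := by
    apply Finset.prod_eq_zero (Finset.mem_univ i)
    rw [if_pos hij, h, sg_self]
  rw [h1, zero_mul]

theorem term_perm (R : Type) [CommRing R] {N : ℕ} (A : ℕ → ℕ → R) (σ : Equiv.Perm (Fin N)) :
    term R N A (Prm.ext (fun i => (σ i : ℕ))) =
      (((Equiv.Perm.sign σ : ℤˣ) : ℤ) : R) * ∏ j : Fin N, A j (σ j) := by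
  rw [term_ext R A _ (fun i => (σ i).2), Finset.prod_mul_distrib]
  congr 1
  rw [Equiv.Perm.sign_eq_prod_prod_Iio]
  rw [Units.coe_prod, Int.cast_prod]
  refine Finset.prod_congr rfl fun j _ => ?_
  rw [Units.coe_prod, Int.cast_prod]
  rw [← Finset.prod_filter]
  have h1 : Finset.univ.filter (fun i : Fin N => i < j) = Finset.Iio j := by
    ext i
    simp
  rw [h1]
  refine Finset.prod_congr rfl fun i hi => ?_
  have hij : i < j := Finset.mem_Iio.1 hi
  have hne : (σ i : ℕ) ≠ (σ j : ℕ) := by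
    intro h
    exact hij.ne (σ.injective (Fin.ext h))
  rw [sg_ne R hne]
  by_cases hlt : σ i < σ j
  · have hlt' : (σ i : ℕ) < (σ j : ℕ) := hlt
    rw [if_pos hlt, if_pos hlt']
    simp
  · have hlt' : ¬ (σ i : ℕ) < (σ j : ℕ) := hlt
    rw [if_neg hlt, if_neg hlt']
    simp

theorem det_eq (R : Type) [CommRing R] (N : ℕ) (A : ℕ → ℕ → R) :
    Matrix.det (Matrix.of fun i j : Fin N => A i j) =
      ∑ z ∈ Fintype.piFinset (fun _ : Fin N => Finset.Ico 0 N), term R N A (Prm.ext z) := by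
  rw [← Matrix.det_transpose, Matrix.det_apply']
  refine Finset.sum_of_injOn (fun σ : Equiv.Perm (Fin N) => fun i => (σ i : ℕ)) ?_ ?_ ?_ ?_
  · intro σ _ τ _ h
    ext i
    exact congrFun h i
  · intro σ _
    rw [Finset.mem_coe, Fintype.mem_piFinset]
    intro i
    exact Finset.mem_Ico.2 ⟨Nat.zero_le _, (σ i).2⟩
  · intro z hz hnot
    rw [Fintype.mem_piFinset] at hz
    have hlt : ∀ i, z i < N := fun i => (Finset.mem_Ico.1 (hz i)).2
    have hninj : ¬ Function.Injective (fun i => (⟨z i, hlt i⟩ : Fin N)) := by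
      intro hinj
      apply hnot
      refine ⟨Equiv.ofBijective _ (Finite.injective_iff_bijective.1 hinj), ?_, ?_⟩
      · simp
      · funext i
        rfl
    rw [Function.not_injective_iff] at hninj
    obtain ⟨i, j, hij, hne⟩ := hninj
    have hij' : z i = z j := congrArg Fin.val hij
    rcases lt_or_gt_of_ne hne with h | h
    · exact term_zero R A z hlt h hij'
    · exact term_zero R A z hlt h hij'.symm
  · intro σ _
    rw [term_perm R A σ]
    rfl

end FCzDetAux

theorem FCz.det (hr : FC r) {N : α → ℕ} (hN : PT N) {A : ∀ a, ℕ → ℕ → ZMod (r a)}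
    (hA : FCz (fun p : α × (ℕ × ℕ) => r p.1) (fun p => A p.1 p.2.1 p.2.2)) :
    FCz r (fun a => Matrix.det (Matrix.of fun i j : Fin (N a) => A a i j)) := by
  have h0 : FCz r (fun a => ∑ z ∈ Fintype.piFinset (fun _ : Fin (N a) => Finset.Ico 0 (N a)),
      FCzDetAux.term (ZMod (r a)) (N a) (A a) (Prm.ext z)) := by
    refine FCz.sum_vec hr hN (FC.const 0) (FC.of_PTnat hN)
      (F := fun a z => FCzDetAux.term (ZMod (r a)) (N a) (A a) z) ?_
    -- products over `j`
    have hr1 : FC (fun p : α × List BNat => r p.1) := hr.pre (PT.fst PT.id)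
    have hN1 : PT (fun p : α × List BNat => N p.1) := hN.comp (PT.fst PT.id)
    refine FCz.prod_unary hr1 hN1 (F := fun p j =>
      ((∏ i ∈ Finset.range (N p.1), if i < j then
        FCzDetAux.sg (ZMod (r p.1)) (vec p.2 i) (vec p.2 j) else 1) *
          A p.1 j (min (vec p.2 j) (N p.1)))) ?_
    have hr2 : FC (fun q : (α × List BNat) × ℕ => r q.1.1) := hr.pre (PT.fst (PT.fst PT.id))
    have hN2 : PT (fun q : (α × List BNat) × ℕ => N q.1.1) := hN.comp (PT.fst (PT.fst PT.id))
    refine FCz.mul hr2 ?_ ?_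
    · refine FCz.prod_unary hr2 hN2 (F := fun q i => if i < q.2 then
        FCzDetAux.sg (ZMod (r q.1.1)) (vec q.1.2 i) (vec q.1.2 q.2) else 1) ?_
      have hr3 : FC (fun t : ((α × List BNat) × ℕ) × ℕ => r t.1.1.1) :=
        hr.pre (PT.fst (PT.fst (PT.fst PT.id)))
      have hl3 : PT (fun t : ((α × List BNat) × ℕ) × ℕ => t.1.1.2) := by fun_prop
      have hi3 : FC (fun t : ((α × List BNat) × ℕ) × ℕ => t.2) := FC.of_PTnat (by fun_prop)
      have hj3 : FC (fun t : ((α × List BNat) × ℕ) × ℕ => t.1.2) := FC.of_PTnat (by fun_prop)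
      have hvi : FC (fun t : ((α × List BNat) × ℕ) × ℕ => vec t.1.1.2 t.2) := FC.vec hl3 hi3
      have hvj : FC (fun t : ((α × List BNat) × ℕ) × ℕ => vec t.1.1.2 t.1.2) := FC.vec hl3 hj3
      have hone : FCz (fun t : ((α × List BNat) × ℕ) × ℕ => r t.1.1.1) (fun t => 1) :=
        (FCz.cast hr3 (FC.const 1)).congr fun p _ => Nat.cast_one
      have hzero : FCz (fun t : ((α × List BNat) × ℕ) × ℕ => r t.1.1.1) (fun t => 0) :=
        (FCz.cast hr3 (FC.const 0)).congr fun p _ => Nat.cast_zero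
      have hmone : FCz (fun t : ((α × List BNat) × ℕ) × ℕ => r t.1.1.1) (fun t => -1) :=
        FCz.neg hr3 hone
      refine (FCz.ite (CHp.lt hi3 hj3) (FCz.ite (CHp.lt hvi hvj) hone
        (FCz.ite (CHp.eq hvi hvj) hzero hmone)) hone).congr fun t _ => ?_
      unfold FCzDetAux.sg
      by_cases h1 : t.2 < t.1.2
      · by_cases h2 : vec t.1.1.2 t.2 < vec t.1.1.2 t.1.2
        · simp only [h1, h2, if_true]
        · by_cases h3 : vec t.1.1.2 t.2 = vec t.1.1.2 t.1.2
          · have h2' : ¬ vec t.1.1.2 t.1.2 < vec t.1.1.2 t.1.2 := lt_irrefl _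
            simp only [h1, h3, h2', if_true, if_false]
          · simp only [h1, h2, h3, if_true, if_false]
      · simp only [h1, if_false]
    · have hl2 : PT (fun q : (α × List BNat) × ℕ => q.1.2) := by fun_prop
      have hj2 : PT (fun q : (α × List BNat) × ℕ => q.2) := by fun_prop
      have hv : PT (fun q : (α × List BNat) × ℕ => q.1.2.getD q.2 (⟨0⟩ : BNat)) :=
        PT.getD hl2 hj2 (PT.const _)
      have hcap : PT (fun q : (α × List BNat) × ℕ => min (vec q.1.2 q.2) (N q.1.1)) :=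
        PT_cap hv hN2
      exact FCz.pre (r := fun p : α × (ℕ × ℕ) => r p.1) (F := fun p => A p.1 p.2.1 p.2.2) hA
        (φ := fun q : (α × List BNat) × ℕ => (q.1.1, (q.2, min (vec q.1.2 q.2) (N q.1.1))))
        (PT.pair (by fun_prop) (PT.pair hj2 hcap))
  refine h0.congr fun a _ => ?_
  rw [FCzDetAux.det_eq]

end Vale.Agent.P337
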