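import Mathlib
import Vale.Agent.Lib.P337.Cx.FCzDet

/-!
P337, complexity side: families of parameters.
-/

namespace Vale.Agent.P337

open Vale.Agent.Lib.Common.PolyTime

variable {α β : Type} [TEnc α] [TEnc β]

/-- families of parameters computable in the counting hierarchy -/
structure CPrm (P : α → Prm) : Prop where
  N : PT (fun x => (P x).N)
  e : PT (fun x => (P x).e)
  EL : PT (fun x => (P x).EL)
  Es : PT (fun x => (P x).Es)
  ES : PT (fun x => (P x).ES)
  EC : PT (fun x => (P x).EC)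
  qs : PT (fun x => (P x).qs)
  K : FC (fun x => (P x).K)
  M : FC (fun x => (P x).M)
  kap : FC (fun x => (P x).kap)
  a : FC (fun x => (P x).a)
  a' : FC (fun x => (P x).a')
  Z : FC (fun x => (P x).Z)
  Th : FC (fun x => (P x).Th)
  w0 : FC (fun x => (P x).w0)
  rho : FC (fun x => (P x).rho)
  q : FC (fun x => (P x).q)
  r : FC (fun x => (P x).r)

theorem CPrm.pre {P : α → Prm} (hP : CPrm P) {φ : β → α} (hφ : PT φ) :
    CPrm (fun b => P (φ b)) where
  N := PT.comp (f := fun x => (P x).N) hP.N hφ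
  e := PT.comp (f := fun x => (P x).e) hP.e hφ
  EL := PT.comp (f := fun x => (P x).EL) hP.EL hφ
  Es := PT.comp (f := fun x => (P x).Es) hP.Es hφ
  ES := PT.comp (f := fun x => (P x).ES) hP.ES hφ
  EC := PT.comp (f := fun x => (P x).EC) hP.EC hφ
  qs := PT.comp (f := fun x => (P x).qs) hP.qs hφ
  K := hP.K.pre hφ
  M := hP.M.pre hφ
  kap := hP.kap.pre hφ
  a := hP.a.pre hφ
  a' := hP.a'.pre hφ
  Z := hP.Z.pre hφ
  Th := hP.Th.pre hφ
  w0 := hP.w0.pre hφ
  rho := hP.rho.pre hφ
  q := hP.q.pre hφ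
  r := hP.r.pre hφ

end Vale.Agent.P337
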