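import Mathlib
import Vale.Agent.Lib.P337.Cx.Bounds
import Vale.Agent.Lib.P337.Main.Defs

/-!
P337: the instance of the feasibility problem and its parameters.
-/

namespace Vale.Agent.P337

open Vale.Agent.Lib.Common.PolyTime

/-- the instances of the feasibility problem: number of variables, list of polynomials -/
abbrev Inst := ℕ × List IPoly

/-- the exponent `e` -/
def eI (I : Inst) : ℕ := 2 + (I.2.map fun q => (q.map fun m : IMono => m.2.sum).sum).sum

theorem PT_eI : PT eI := by
  unfold eI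
  fun_prop

theorem two_le_eI (I : Inst) : 2 ≤ eI I := by
  unfold eI
  omega

theorem choice_getD_sum (l : List ℕ) (N : ℕ) : ∑ i ∈ Finset.range N, l.getD i 0 ≤ l.sum := by
  induction l generalizing N with
  | nil => simp
  | cons a l ih =>
    cases N with
    | zero => simp
    | succ N =>
      rw [Finset.sum_range_succ', List.sum_cons]
      have h1 := ih N
      simp only [List.getD_cons_succ, List.getD_cons_zero]
      omega

theorem choice_mono_deg (N : ℕ) (m : IMono) : (IMono.toMv N m).totalDegree ≤ m.2.sum := by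
  unfold IMono.toMv
  refine (MvPolynomial.totalDegree_monomial_le _ _).trans ?_
  rw [Finsupp.sum_fintype _ _ (by simp)]
  refine le_trans (le_of_eq ?_) (choice_getD_sum m.2 N)
  rw [Finset.sum_range]
  rfl

theorem choice_poly_deg (N : ℕ) (q : IPoly) :
    (IPoly.toMv N q).totalDegree ≤ (q.map fun m : IMono => m.2.sum).sum := by
  induction q with
  | nil => simp [IPoly.toMv]
  | cons m q ih =>
    have h : IPoly.toMv N (m :: q) = IMono.toMv N m + IPoly.toMv N q := by
      simp [IPoly.toMv]
    rw [h, List.map_cons, List.sum_cons]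
    refine (MvPolynomial.totalDegree_add _ _).trans (max_le ?_ ?_)
    · exact (choice_mono_deg N m).trans (Nat.le_add_right _ _)
    · exact ih.trans (Nat.le_add_left _ _)

theorem choice_sqs_deg (N : ℕ) (qs : List IPoly) :
    (sqs N qs).totalDegree ≤ 2 * (qs.map fun q => (q.map fun m : IMono => m.2.sum).sum).sum := by
  induction qs with
  | nil => simp [sqs]
  | cons q qs ih =>
    have h : sqs N (q :: qs) = IPoly.toMv N q ^ 2 + sqs N qs := by simp [sqs]
    rw [h, List.map_cons, List.sum_cons]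
    refine (MvPolynomial.totalDegree_add _ _).trans (max_le ?_ ?_)
    · refine (MvPolynomial.totalDegree_pow _ _).trans ?_
      have := choice_poly_deg N q
      omega
    · omega

theorem sqs_totalDegree (I : Inst) : (sqs I.1 I.2).totalDegree < 2 * eI I := by
  have := choice_sqs_deg I.1 I.2
  unfold eI
  omega

theorem choice_l1_of_subset {N : ℕ} (p : MvPolynomial (Fin N) ℤ) {s : Finset (Fin N →₀ ℕ)}
    (hs : p.support ⊆ s) : l1 p = ∑ m ∈ s, |MvPolynomial.coeff m p| := by
  unfold l1
  apply Finset.sum_subset hs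
  intro m _ hm
  rw [MvPolynomial.notMem_support_iff.mp hm, abs_zero]

theorem choice_l1_add {N : ℕ} (p q : MvPolynomial (Fin N) ℤ) : l1 (p + q) ≤ l1 p + l1 q := by
  classical
  rw [choice_l1_of_subset p (s := p.support ∪ q.support) Finset.subset_union_left,
    choice_l1_of_subset q (s := p.support ∪ q.support) Finset.subset_union_right,
    choice_l1_of_subset (p + q) (s := p.support ∪ q.support) MvPolynomial.support_add,
    ← Finset.sum_add_distrib]
  apply Finset.sum_le_sum
  intro m _
  rw [MvPolynomial.coeff_add]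
  exact abs_add_le _ _

theorem choice_l1_monomial {N : ℕ} (m : Fin N →₀ ℕ) (c : ℤ) :
    l1 (MvPolynomial.monomial m c) ≤ |c| := by
  classical
  rw [choice_l1_of_subset (MvPolynomial.monomial m c) (s := {m})
    MvPolynomial.support_monomial_subset, Finset.sum_singleton, MvPolynomial.coeff_monomial,
    if_pos rfl]

theorem choice_l1_sum {N : ℕ} {ι : Type} (s : Finset ι) (f : ι → MvPolynomial (Fin N) ℤ) :
    l1 (∑ i ∈ s, f i) ≤ ∑ i ∈ s, l1 (f i) := by
  classical
  induction s using Finset.induction_on with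
  | empty => simp [l1]
  | insert i s hi ih =>
    rw [Finset.sum_insert hi, Finset.sum_insert hi]
    exact (choice_l1_add _ _).trans (by omega)

theorem choice_l1_mul {N : ℕ} (p q : MvPolynomial (Fin N) ℤ) : l1 (p * q) ≤ l1 p * l1 q := by
  have h1 : p * q = ∑ a ∈ p.support, ∑ b ∈ q.support,
      MvPolynomial.monomial (a + b) (MvPolynomial.coeff a p * MvPolynomial.coeff b q) := by
    conv_lhs => rw [p.as_sum, q.as_sum]
    rw [Finset.sum_mul_sum]
    simp only [MvPolynomial.monomial_mul]
  rw [h1]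
  refine (choice_l1_sum _ _).trans ?_
  have h2 : l1 p * l1 q = ∑ a ∈ p.support, ∑ b ∈ q.support,
      |MvPolynomial.coeff a p| * |MvPolynomial.coeff b q| := by
    unfold l1
    rw [Finset.sum_mul_sum]
  rw [h2]
  apply Finset.sum_le_sum
  intro a _
  refine (choice_l1_sum _ _).trans ?_
  apply Finset.sum_le_sum
  intro b _
  refine (choice_l1_monomial _ _).trans ?_
  rw [abs_mul]

theorem choice_l1_nonneg {N : ℕ} (p : MvPolynomial (Fin N) ℤ) : 0 ≤ l1 p :=
  Finset.sum_nonneg fun _ _ => abs_nonneg _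

theorem choice_pow_add {a b : ℤ} {x y : ℕ} (ha : a ≤ ((2 ^ x : ℕ) : ℤ))
    (hb : b ≤ ((2 ^ y : ℕ) : ℤ)) : a + b ≤ ((2 ^ (x + y + 1) : ℕ) : ℤ) := by
  have h1 := bounds_add_le x y
  have h2 : (((2 ^ x + 2 ^ y : ℕ)) : ℤ) ≤ ((2 ^ (x + y + 1) : ℕ) : ℤ) := by exact_mod_cast h1
  push_cast at h2 ha hb ⊢
  linarith

/-- logarithmic size of a polynomial -/
def choiceT (q : IPoly) : ℕ := (q.map fun m : IMono => (Nat.bits m.1.2.v).length + 1).sum

theorem choice_mono_l1 (N : ℕ) (m : IMono) :
    l1 (IMono.toMv N m) ≤ ((2 ^ (Nat.bits m.1.2.v).length : ℕ) : ℤ) := by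
  unfold IMono.toMv
  refine (choice_l1_monomial _ _).trans ?_
  have h1 : |IMono.coef m| = ((m.1.2.v : ℕ) : ℤ) := by
    unfold IMono.coef
    rw [abs_mul]
    split_ifs <;> simp
  rw [h1]
  have h2 := bval_lt (Nat.bits m.1.2.v)
  rw [bval_bits] at h2
  exact_mod_cast h2.le

theorem choice_poly_l1 (N : ℕ) (q : IPoly) :
    l1 (IPoly.toMv N q) ≤ ((2 ^ choiceT q : ℕ) : ℤ) := by
  induction q with
  | nil => simp [IPoly.toMv, l1, choiceT]
  | cons m q ih =>
    have h : IPoly.toMv N (m :: q) = IMono.toMv N m + IPoly.toMv N q := by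
      simp [IPoly.toMv]
    have h' : choiceT (m :: q) = (Nat.bits m.1.2.v).length + choiceT q + 1 := by
      simp only [choiceT, List.map_cons, List.sum_cons]
      omega
    rw [h, h']
    exact (choice_l1_add _ _).trans (choice_pow_add (choice_mono_l1 N m) ih)

/-- logarithmic size of a list of polynomials -/
def choiceE (qs : List IPoly) : ℕ := (qs.map fun q => 2 * choiceT q + 1).sum

theorem choice_sqs_l1 (N : ℕ) (qs : List IPoly) :
    l1 (sqs N qs) ≤ ((2 ^ choiceE qs : ℕ) : ℤ) := by
  induction qs with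
  | nil => simp [sqs, l1, choiceE]
  | cons q qs ih =>
    have h : sqs N (q :: qs) = IPoly.toMv N q ^ 2 + sqs N qs := by simp [sqs]
    have h' : choiceE (q :: qs) = 2 * choiceT q + choiceE qs + 1 := by
      simp only [choiceE, List.map_cons, List.sum_cons]
      omega
    rw [h, h']
    refine (choice_l1_add _ _).trans (choice_pow_add ?_ ih)
    rw [pow_two]
    refine (choice_l1_mul _ _).trans ?_
    have h1 := choice_poly_l1 N q
    have h2 := choice_l1_nonneg (IPoly.toMv N q)
    calc l1 (IPoly.toMv N q) * l1 (IPoly.toMv N q)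
        ≤ ((2 ^ choiceT q : ℕ) : ℤ) * ((2 ^ choiceT q : ℕ) : ℤ) :=
          mul_le_mul h1 h1 h2 (by positivity)
      _ = ((2 ^ (2 * choiceT q) : ℕ) : ℤ) := by
          push_cast
          rw [← pow_add, two_mul]

theorem exists_EQ : ∃ EQ : Inst → ℕ, PT EQ ∧ ∀ I : Inst, l1 (sqs I.1 I.2) ≤ ((2 ^ EQ I : ℕ) : ℤ) := by
  refine ⟨fun I => choiceE I.2, ?_, fun I => choice_sqs_l1 I.1 I.2⟩
  unfold choiceE choiceT
  fun_prop

theorem choice_eval_sqs (N : ℕ) (qs : List IPoly) (x : Fin N → ℝ) :
    MvPolynomial.eval x (toR (sqs N qs)) =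
      (qs.map fun q => (MvPolynomial.eval x (toR (IPoly.toMv N q))) ^ 2).sum := by
  induction qs with
  | nil => simp [sqs, toR]
  | cons q qs ih =>
    have h : sqs N (q :: qs) = IPoly.toMv N q ^ 2 + sqs N qs := by simp [sqs]
    rw [h, List.map_cons, List.sum_cons, ← ih]
    simp [toR]

theorem sqs_nonneg (I : Inst) (x : Fin I.1 → ℝ) : 0 ≤ MvPolynomial.eval x (toR (sqs I.1 I.2)) := by
  rw [choice_eval_sqs]
  apply List.sum_nonneg
  intro y hy
  obtain ⟨q, _, rfl⟩ := List.mem_map.mp hy
  exact sq_nonneg _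

theorem choice_sum_sq_eq_zero {ι : Type} (l : List ι) (f : ι → ℝ) :
    (l.map fun q => f q ^ 2).sum = 0 ↔ ∀ q ∈ l, f q = 0 := by
  induction l with
  | nil => simp
  | cons a l ih =>
    have h1 : 0 ≤ (l.map fun q => f q ^ 2).sum := by
      apply List.sum_nonneg
      intro y hy
      obtain ⟨q, _, rfl⟩ := List.mem_map.mp hy
      exact sq_nonneg _
    have h2 := sq_nonneg (f a)
    rw [List.map_cons, List.sum_cons, List.forall_mem_cons, ← ih]
    constructor
    · intro h
      have h3 : f a ^ 2 = 0 := by linarith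
      exact ⟨by simpa using h3, by linarith⟩
    · rintro ⟨h3, h4⟩
      rw [h3, h4]
      norm_num

theorem sqs_eq_zero_iff (I : Inst) (x : Fin I.1 → ℝ) :
    MvPolynomial.eval x (toR (sqs I.1 I.2)) = 0 ↔
      ∀ q ∈ I.2, MvPolynomial.eval x (toR (IPoly.toMv I.1 q)) = 0 := by
  rw [choice_eval_sqs]
  exact choice_sum_sq_eq_zero I.2 fun q => MvPolynomial.eval x (toR (IPoly.toMv I.1 q))

/-- the dimension -/
def DI (I : Inst) : ℕ := (2 * eI I - 1) ^ I.1

/-- parameters depending on the dimension only -/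
def w0I (I : Inst) : ℕ := 6 * DI I * (DI I ^ 3 + 3) + 4

def ZI (I : Inst) : ℕ := 8 * (DI I + 2)

def aI (I : Inst) : ℕ := 32 * (DI I ^ 2 + 1) * (DI I * (2 * DI I ^ 3 + 6) + w0I I)

end Vale.Agent.P337
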