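import Mathlib
import Vale.Agent.Lib.P337.Cx.CPrm

/-!
P337, complexity side: evaluation of sparse polynomials and their derivatives.
-/

namespace Vale.Agent.P337

open Vale.Agent.Lib.Common.PolyTime

variable {α β : Type} [TEnc α] [TEnc β]

/-! ### derivatives of internal polynomials -/

/-- product of a binary and a unary number -/
theorem formA_PT_bmulUnary {f : α → BNat} {g : α → ℕ} (hf : PT f) (hg : PT g) :
    PT (fun a => (⟨(f a).v * g a⟩ : BNat)) := by
  have h1 : PT (fun a => sz (f a)) := PT.comp PT_sz hf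
  have h2 : PT (fun a => (⟨2 ^ (sz (f a) + g a)⟩ : BNat)) := PT_twoPow (PT.add h1 hg)
  have h3 := PT_bmulmod hf (PT_ofNat hg) h2
  have h4 : (fun a => (⟨(f a).v * g a⟩ : BNat)) =
      fun a => (⟨(f a).v * (⟨g a⟩ : BNat).v % (⟨2 ^ (sz (f a) + g a)⟩ : BNat).v⟩ : BNat) := by
    funext a
    have h5 : (f a).v * g a < 2 ^ (sz (f a) + g a) := by
      rw [pow_add]
      exact Nat.mul_lt_mul'' (lt_two_pow_sz (f a)) Nat.lt_two_pow_self
    change (⟨(f a).v * g a⟩ : BNat) = ⟨(f a).v * g a % 2 ^ (sz (f a) + g a)⟩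
    rw [Nat.mod_eq_of_lt h5]
  rw [h4]
  exact h3

/-- derivative of a monomial with respect to the variable `i` -/
def formA_dm (i : ℕ) (m : IMono) : IMono :=
  ((m.1.1, ⟨m.1.2.v * m.2.getD i 0⟩), m.2.set i (m.2.getD i 0 - 1))

/-- derivative of an internal polynomial with respect to the variable `i` -/
def formA_dp (i : ℕ) (q : IPoly) : IPoly := List.map (fun m => formA_dm i m) q

theorem formA_PT_dp {i : α → ℕ} (hi : PT i) {q : α → IPoly} (hq : PT q) :
    PT (fun x => formA_dp (i x) (q x)) := by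
  have h1 : PT (fun p : α × IMono => formA_dm (i p.1) p.2) := by
    have hi' : PT (fun p : α × IMono => i p.1) := hi.comp (PT.fst PT.id)
    have hm : PT (fun p : α × IMono => p.2) := PT.snd PT.id
    have he : PT (fun p : α × IMono => p.2.2.getD (i p.1) 0) :=
      PT.getD (PT.snd hm) hi' (PT.const 0)
    exact PT.pair (PT.pair (PT.fst (PT.fst hm))
      (formA_PT_bmulUnary (PT.snd (PT.fst hm)) he))
      (PT.set (PT.snd hm) hi' (PT.sub he (PT.const 1)))
  exact PT.map (f := fun a m => formA_dm (i a) m) h1 hq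

theorem formA_getD_set (l : List ℕ) (i j d : ℕ) (h : i < l.length) :
    (l.set i d).getD j 0 = if j = i then d else l.getD j 0 := by
  rw [List.getD_eq_getElem?_getD, List.getElem?_set, List.getD_eq_getElem?_getD]
  by_cases hij : i = j
  · subst hij
    simp [h]
  · rw [if_neg hij, if_neg (fun h => hij h.symm)]

theorem formA_toMv_dm (N i : ℕ) (hi : i < N) (m : IMono) :
    IMono.toMv N (formA_dm i m) = MvPolynomial.pderiv ⟨i, hi⟩ (IMono.toMv N m) := by
  rw [IMono.toMv, IMono.toMv, MvPolynomial.pderiv_monomial]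
  have hc : IMono.coef (formA_dm i m) = IMono.coef m * (m.2.getD i 0 : ℕ) := by
    obtain ⟨⟨b, c⟩, l⟩ := m
    cases b
    · simp [IMono.coef, formA_dm]
    · simp [IMono.coef, formA_dm]
  have he : (Finsupp.equivFunOnFinite.symm fun k : Fin N => m.2.getD (k : ℕ) 0) ⟨i, hi⟩ =
      m.2.getD i 0 := rfl
  rw [he, hc]
  by_cases h0 : m.2.getD i 0 = 0
  · rw [h0]
    simp
  · have hlen : i < m.2.length := by
      by_contra hcon
      push Not at hcon
      exact h0 (List.getD_eq_default _ _ hcon)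
    congr 2
    ext k
    rw [Finsupp.tsub_apply, Finsupp.single_apply]
    change (m.2.set i (m.2.getD i 0 - 1)).getD (k : ℕ) 0 = m.2.getD (k : ℕ) 0 - _
    rw [formA_getD_set _ _ _ _ hlen]
    by_cases hk : (k : ℕ) = i
    · rw [if_pos hk, if_pos (Fin.ext hk.symm), hk]
    · rw [if_neg hk, if_neg (fun h => hk (by rw [← h]))]
      simp

theorem formA_toMv_dp (N i : ℕ) (hi : i < N) (q : IPoly) :
    IPoly.toMv N (formA_dp i q) = MvPolynomial.pderiv ⟨i, hi⟩ (IPoly.toMv N q) := by
  induction q with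
  | nil => simp [IPoly.toMv, formA_dp]
  | cons m q ih =>
    have h1 : IPoly.toMv N (formA_dp i (m :: q)) =
        IMono.toMv N (formA_dm i m) + IPoly.toMv N (formA_dp i q) := by
      simp [IPoly.toMv, formA_dp]
    have h2 : IPoly.toMv N (m :: q) = IMono.toMv N m + IPoly.toMv N q := by
      simp [IPoly.toMv]
    rw [h1, h2, map_add, ih, formA_toMv_dm N i hi]

/-! ### the value as an explicit sum -/

theorem formA_sum_list {R : Type} [AddCommMonoid R] {γ : Type} (f : γ → R) (d : γ) (l : List γ) :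
    (List.map f l).sum = ∑ k ∈ Finset.range l.length, f (l.getD k d) := by
  induction l with
  | nil => simp
  | cons a l ih =>
    rw [List.length_cons, Finset.sum_range_succ', List.map_cons, List.sum_cons, ih]
    simp [add_comm]

theorem formA_eval (R : Type) [CommRing R] (N : ℕ) (g : ℕ → R) (q : IPoly) :
    MvPolynomial.eval (fun i : Fin N => g i)
      (MvPolynomial.map (Int.castRingHom R) (IPoly.toMv N q)) =
      ∑ k ∈ Finset.range q.length, ((IMono.coef (q.getD k ((false, ⟨0⟩), []))) : R) *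
        ∏ j ∈ Finset.range N, g j ^ (q.getD k ((false, ⟨0⟩), [])).2.getD j 0 := by
  rw [← formA_sum_list (fun m : IMono => ((IMono.coef m : ℤ) : R) *
    ∏ j ∈ Finset.range N, g j ^ m.2.getD j 0)]
  induction q with
  | nil => simp [IPoly.toMv]
  | cons m q ih =>
    have h2 : IPoly.toMv N (m :: q) = IMono.toMv N m + IPoly.toMv N q := by
      simp [IPoly.toMv]
    rw [h2, map_add, map_add, ih, List.map_cons, List.sum_cons]
    congr 1
    rw [IMono.toMv, MvPolynomial.map_monomial, MvPolynomial.eval_monomial, Finset.prod_range,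
      Finsupp.prod_fintype _ _ (fun i => pow_zero _)]
    rfl

theorem FCz_toMv {r : α → ℕ} (hr : FC r) {N : α → ℕ} (hN : PT N) {q : α → IPoly} (hq : PT q)
    {z : α → List BNat} (hz : PT z) :
    FCz r (fun x => MvPolynomial.eval (fun i : Fin (N x) => ((vec (z x) i : ℕ) : ZMod (r x)))
      (MvPolynomial.map (Int.castRingHom _) (IPoly.toMv (N x) (q x)))) := by
  have hr1 : FC (fun p : α × ℕ => r p.1) := hr.pre (PT.fst PT.id)
  have hr2 : FC (fun s : (α × ℕ) × ℕ => r s.1.1) := hr1.pre (PT.fst PT.id)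
  have hm : PT (fun p : α × ℕ => (q p.1).getD p.2 ((false, ⟨0⟩), [])) :=
    PT.getD (hq.comp (PT.fst PT.id)) (PT.snd PT.id) (PT.const _)
  have hcoef : FCz (fun p : α × ℕ => r p.1)
      (fun p => ((IMono.coef ((q p.1).getD p.2 ((false, ⟨0⟩), [])) : ℤ) : ZMod (r p.1))) := by
    have hv : FCz (fun p : α × ℕ => r p.1)
        (fun p => ((((q p.1).getD p.2 ((false, ⟨0⟩), [])).1.2.v : ℕ) : ZMod (r p.1))) :=
      FCz.cast hr1 (FC.of_PT (PT.snd (PT.fst hm)))
    have hc : CHp (fun p : α × ℕ => ((q p.1).getD p.2 ((false, ⟨0⟩), [])).1.1 = true) :=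
      CHp.of_PT (PT.fst (PT.fst hm))
    refine FCz.congr (FCz.ite hc (FCz.neg hr1 hv) hv) ?_
    intro p _
    rw [IMono.coef]
    by_cases h : ((q p.1).getD p.2 ((false, ⟨0⟩), [])).1.1 = true
    · rw [if_pos h, if_pos h]
      push_cast
      ring
    · rw [if_neg h, if_neg h]
      push_cast
      ring
  have hprod : FCz (fun p : α × ℕ => r p.1)
      (fun p => ∏ j ∈ Finset.range (N p.1), ((vec (z p.1) j : ℕ) : ZMod (r p.1)) ^
        ((q p.1).getD p.2 ((false, ⟨0⟩), [])).2.getD j 0) := by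
    refine FCz.prod_unary (r := fun p : α × ℕ => r p.1) hr1 (M := fun p : α × ℕ => N p.1)
      (hN.comp (PT.fst PT.id))
      (F := fun p j => ((vec (z p.1) j : ℕ) : ZMod (r p.1)) ^
        ((q p.1).getD p.2 ((false, ⟨0⟩), [])).2.getD j 0) ?_
    have hvec : PT (fun s : (α × ℕ) × ℕ => (z s.1.1).getD s.2 ⟨0⟩) :=
      PT.getD (hz.comp (PT.fst (PT.fst PT.id))) (PT.snd PT.id) (PT.const _)
    have hexp : PT (fun s : (α × ℕ) × ℕ =>
        ((q s.1.1).getD s.1.2 ((false, ⟨0⟩), [])).2.getD s.2 0) :=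
      PT.getD (PT.snd (hm.comp (PT.fst PT.id))) (PT.snd PT.id) (PT.const 0)
    exact FCz.pow hr2 (FCz.cast hr2 (FC.of_PT hvec)) (FC.of_PTnat hexp)
  have hsum := FCz.sum_unary hr (M := fun x => (q x).length) (PT.length hq)
    (F := fun x k => ((IMono.coef ((q x).getD k ((false, ⟨0⟩), [])) : ℤ) : ZMod (r x)) *
      ∏ j ∈ Finset.range (N x), ((vec (z x) j : ℕ) : ZMod (r x)) ^
        ((q x).getD k ((false, ⟨0⟩), [])).2.getD j 0) (FCz.mul hr1 hcoef hprod)
  refine FCz.congr hsum ?_
  intro x _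
  exact (formA_eval (ZMod (r x)) (N x) (fun j => ((vec (z x) j : ℕ) : ZMod (r x))) (q x)).symm

theorem FCz_toMv1 {r : α → ℕ} (hr : FC r) {N : α → ℕ} (hN : PT N) {q : α → IPoly} (hq : PT q)
    {z : α → List BNat} (hz : PT z) {i : α → ℕ} (hi : PT i) :
    FCz r (fun x => if h : i x < N x then
      MvPolynomial.eval (fun i : Fin (N x) => ((vec (z x) i : ℕ) : ZMod (r x)))
        (MvPolynomial.map (Int.castRingHom _)
          (MvPolynomial.pderiv ⟨i x, h⟩ (IPoly.toMv (N x) (q x)))) else 0) := by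
  have hc : CHp (fun x => i x < N x) := CHp.of_decide (PT.decide_lt hi hN)
  have h0 : FCz r (fun x => (0 : ZMod (r x))) :=
    FCz.congr (FCz.cast hr (FC.const 0)) (fun x _ => by simp)
  refine FCz.congr (FCz.ite hc (FCz_toMv hr hN (formA_PT_dp hi hq) hz) h0) ?_
  intro x _
  by_cases h : i x < N x
  · rw [if_pos h, dif_pos h, formA_toMv_dp]
  · rw [if_neg h, dif_neg h]

theorem FCz_toMv2 {r : α → ℕ} (hr : FC r) {N : α → ℕ} (hN : PT N) {q : α → IPoly} (hq : PT q)
    {z : α → List BNat} (hz : PT z) {i j : α → ℕ} (hi : PT i) (hj : PT j) :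
    FCz r (fun x => if h : i x < N x then if h' : j x < N x then
      MvPolynomial.eval (fun i : Fin (N x) => ((vec (z x) i : ℕ) : ZMod (r x)))
        (MvPolynomial.map (Int.castRingHom _)
          (MvPolynomial.pderiv ⟨j x, h'⟩
            (MvPolynomial.pderiv ⟨i x, h⟩ (IPoly.toMv (N x) (q x))))) else 0 else 0) := by
  have hc : CHp (fun x => i x < N x) := CHp.of_decide (PT.decide_lt hi hN)
  have h0 : FCz r (fun x => (0 : ZMod (r x))) :=
    FCz.congr (FCz.cast hr (FC.const 0)) (fun x _ => by simp)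
  refine FCz.congr (FCz.ite hc (FCz_toMv1 hr hN (formA_PT_dp hi hq) hz hj) h0) ?_
  intro x _
  by_cases h : i x < N x
  · rw [if_pos h, dif_pos h]
    by_cases h' : j x < N x
    · rw [dif_pos h', dif_pos h', formA_toMv_dp (N x) (i x) h]
    · rw [dif_neg h', dif_neg h']
  · rw [if_neg h, dif_neg h]

end Vale.Agent.P337
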