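import Mathlib
import Vale.Agent.Lib.P337.Cx.FormA

/-!
P337, complexity side: evaluation of the sum of squares.
-/

namespace Vale.Agent.P337

open Vale.Agent.Lib.Common.PolyTime

variable {α β : Type} [TEnc α] [TEnc β]

/-- sums over lists as sums over ranges -/
theorem list_sum_map_eq_range {ι M : Type} [AddCommMonoid M] (f : ι → M) (d : ι) (l : List ι) :
    (List.map f l).sum = ∑ k ∈ Finset.range l.length, f (l.getD k d) := by
  induction l with
  | nil => simp
  | cons a l ih =>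
    rw [List.map_cons, List.sum_cons, List.length_cons, Finset.sum_range_succ', ih, add_comm]
    simp

/-- value of an internal polynomial modulo `r` -/
noncomputable def vq0 (r N : ℕ) (q : IPoly) (l : List BNat) : ZMod r :=
  MvPolynomial.eval (fun i : Fin N => ((vec l i : ℕ) : ZMod r))
    (MvPolynomial.map (Int.castRingHom _) (IPoly.toMv N q))

/-- value of a partial derivative of an internal polynomial modulo `r` -/
noncomputable def vq1 (r N : ℕ) (q : IPoly) (l : List BNat) (i : ℕ) : ZMod r :=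
  if h : i < N then
    MvPolynomial.eval (fun i : Fin N => ((vec l i : ℕ) : ZMod r))
      (MvPolynomial.map (Int.castRingHom _)
        (MvPolynomial.pderiv ⟨i, h⟩ (IPoly.toMv N q))) else 0

/-- value of a second partial derivative of an internal polynomial modulo `r` -/
noncomputable def vq2 (r N : ℕ) (q : IPoly) (l : List BNat) (i j : ℕ) : ZMod r :=
  if h : i < N then if h' : j < N then
    MvPolynomial.eval (fun i : Fin N => ((vec l i : ℕ) : ZMod r))
      (MvPolynomial.map (Int.castRingHom _)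
        (MvPolynomial.pderiv ⟨j, h'⟩
          (MvPolynomial.pderiv ⟨i, h⟩ (IPoly.toMv N q)))) else 0 else 0

theorem ev0_eq_sum (P : Prm) (l : List BNat) :
    P.ev0 (vec l) = ∑ k ∈ Finset.range P.qs.length, vq0 P.r P.N (P.qs.getD k []) l ^ 2 := by
  unfold Prm.ev0 Prm.p sqs
  rw [list_sum_map_eq_range _ ([] : IPoly), map_sum, map_sum]
  refine Finset.sum_congr rfl fun k _ => ?_
  rw [map_pow, map_pow]
  rfl

theorem ev1_eq_sum (P : Prm) (l : List BNat) (i : ℕ) :
    P.ev1 i (vec l) = ∑ k ∈ Finset.range P.qs.length,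
      2 * (vq0 P.r P.N (P.qs.getD k []) l * vq1 P.r P.N (P.qs.getD k []) l i) := by
  unfold Prm.ev1 Prm.p sqs
  by_cases hi : i < P.N
  · rw [dif_pos hi, list_sum_map_eq_range _ ([] : IPoly), map_sum, map_sum, map_sum]
    refine Finset.sum_congr rfl fun k _ => ?_
    rw [vq1, dif_pos hi, vq0, pow_two, Derivation.leibniz]
    simp only [smul_eq_mul, map_add, map_mul]
    change _ = 2 * (MvPolynomial.eval (P.pt (vec l)) _ * MvPolynomial.eval (P.pt (vec l)) _)
    ring
  · rw [dif_neg hi]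
    refine (Finset.sum_eq_zero fun k _ => ?_).symm
    rw [vq1, dif_neg hi, mul_zero, mul_zero]

theorem ev2_eq_sum (P : Prm) (l : List BNat) (i j : ℕ) :
    P.ev2 i j (vec l) = ∑ k ∈ Finset.range P.qs.length,
      2 * (vq1 P.r P.N (P.qs.getD k []) l j * vq1 P.r P.N (P.qs.getD k []) l i +
        vq0 P.r P.N (P.qs.getD k []) l * vq2 P.r P.N (P.qs.getD k []) l i j) := by
  unfold Prm.ev2 Prm.p sqs
  by_cases hi : i < P.N
  · by_cases hj : j < P.N
    · rw [dif_pos hi, dif_pos hj, list_sum_map_eq_range _ ([] : IPoly), map_sum, map_sum, map_sum,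
        map_sum]
      refine Finset.sum_congr rfl fun k _ => ?_
      rw [vq1, dif_pos hj, vq1, dif_pos hi, vq2, dif_pos hi, dif_pos hj, vq0, pow_two,
        Derivation.leibniz]
      simp only [smul_eq_mul, map_add, map_mul, Derivation.leibniz]
      change _ = 2 * (MvPolynomial.eval (P.pt (vec l)) _ * MvPolynomial.eval (P.pt (vec l)) _ +
        MvPolynomial.eval (P.pt (vec l)) _ * MvPolynomial.eval (P.pt (vec l)) _)
      ring
    · rw [dif_pos hi, dif_neg hj]
      refine (Finset.sum_eq_zero fun k _ => ?_).symm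
      rw [vq1, dif_neg hj, vq2, dif_pos hi, dif_neg hj]
      ring
  · rw [dif_neg hi]
    refine (Finset.sum_eq_zero fun k _ => ?_).symm
    rw [vq2, dif_neg hi, vq1, vq1, dif_neg hi]
    ring

variable {P : α → Prm}

theorem FCz_ev0 (hP : CPrm P) {z : α → List BNat} (hz : PT z) :
    FCz (fun x => (P x).r) (fun x => (P x).ev0 (vec (z x))) := by
  have hP1 : CPrm (fun p : α × ℕ => P p.1) := hP.pre (PT.fst PT.id)
  have hz1 : PT (fun p : α × ℕ => z p.1) := PT.comp (f := z) hz (PT.fst PT.id)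
  have hq1 : PT (fun p : α × ℕ => (P p.1).qs.getD p.2 []) :=
    PT.getD hP1.qs (PT.snd PT.id) (PT.const [])
  have h0 : FCz (fun p : α × ℕ => (P p.1).r)
      (fun p => vq0 (P p.1).r (P p.1).N ((P p.1).qs.getD p.2 []) (z p.1)) :=
    FCz_toMv hP1.r hP1.N hq1 hz1
  refine (FCz.sum_unary hP.r (PT.length hP.qs)
    (F := fun x k => vq0 (P x).r (P x).N ((P x).qs.getD k []) (z x) ^ 2)
    (FCz.pow hP1.r h0 (FC.const 2))).congr fun x _ => (ev0_eq_sum (P x) (z x)).symm

theorem FCz_ev1 (hP : CPrm P) {z : α → List BNat} (hz : PT z) {i : α → ℕ} (hi : PT i) :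
    FCz (fun x => (P x).r) (fun x => (P x).ev1 (i x) (vec (z x))) := by
  have hP1 : CPrm (fun p : α × ℕ => P p.1) := hP.pre (PT.fst PT.id)
  have hz1 : PT (fun p : α × ℕ => z p.1) := PT.comp (f := z) hz (PT.fst PT.id)
  have hi1 : PT (fun p : α × ℕ => i p.1) := PT.comp (f := i) hi (PT.fst PT.id)
  have hq1 : PT (fun p : α × ℕ => (P p.1).qs.getD p.2 []) :=
    PT.getD hP1.qs (PT.snd PT.id) (PT.const [])
  have h0 : FCz (fun p : α × ℕ => (P p.1).r)
      (fun p => vq0 (P p.1).r (P p.1).N ((P p.1).qs.getD p.2 []) (z p.1)) :=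
    FCz_toMv hP1.r hP1.N hq1 hz1
  have h1 : FCz (fun p : α × ℕ => (P p.1).r)
      (fun p => vq1 (P p.1).r (P p.1).N ((P p.1).qs.getD p.2 []) (z p.1) (i p.1)) :=
    FCz_toMv1 hP1.r hP1.N hq1 hz1 hi1
  have h2 : FCz (fun p : α × ℕ => (P p.1).r) (fun _ => 2) :=
    (FCz.cast hP1.r (FC.const 2)).congr fun x _ => by simp
  exact (FCz.sum_unary hP.r (PT.length hP.qs)
    (F := fun x k => 2 * (vq0 (P x).r (P x).N ((P x).qs.getD k []) (z x) *
      vq1 (P x).r (P x).N ((P x).qs.getD k []) (z x) (i x)))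
    (FCz.mul hP1.r h2 (FCz.mul hP1.r h0 h1))).congr fun x _ => (ev1_eq_sum (P x) (z x) (i x)).symm

theorem FCz_ev2 (hP : CPrm P) {z : α → List BNat} (hz : PT z) {i j : α → ℕ} (hi : PT i)
    (hj : PT j) : FCz (fun x => (P x).r) (fun x => (P x).ev2 (i x) (j x) (vec (z x))) := by
  have hP1 : CPrm (fun p : α × ℕ => P p.1) := hP.pre (PT.fst PT.id)
  have hz1 : PT (fun p : α × ℕ => z p.1) := PT.comp (f := z) hz (PT.fst PT.id)
  have hi1 : PT (fun p : α × ℕ => i p.1) := PT.comp (f := i) hi (PT.fst PT.id)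
  have hj1 : PT (fun p : α × ℕ => j p.1) := PT.comp (f := j) hj (PT.fst PT.id)
  have hq1 : PT (fun p : α × ℕ => (P p.1).qs.getD p.2 []) :=
    PT.getD hP1.qs (PT.snd PT.id) (PT.const [])
  have h0 : FCz (fun p : α × ℕ => (P p.1).r)
      (fun p => vq0 (P p.1).r (P p.1).N ((P p.1).qs.getD p.2 []) (z p.1)) :=
    FCz_toMv hP1.r hP1.N hq1 hz1
  have h1 : FCz (fun p : α × ℕ => (P p.1).r)
      (fun p => vq1 (P p.1).r (P p.1).N ((P p.1).qs.getD p.2 []) (z p.1) (i p.1)) :=
    FCz_toMv1 hP1.r hP1.N hq1 hz1 hi1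
  have h1' : FCz (fun p : α × ℕ => (P p.1).r)
      (fun p => vq1 (P p.1).r (P p.1).N ((P p.1).qs.getD p.2 []) (z p.1) (j p.1)) :=
    FCz_toMv1 hP1.r hP1.N hq1 hz1 hj1
  have h11 : FCz (fun p : α × ℕ => (P p.1).r)
      (fun p => vq2 (P p.1).r (P p.1).N ((P p.1).qs.getD p.2 []) (z p.1) (i p.1) (j p.1)) :=
    FCz_toMv2 hP1.r hP1.N hq1 hz1 hi1 hj1
  have h2 : FCz (fun p : α × ℕ => (P p.1).r) (fun _ => 2) :=
    (FCz.cast hP1.r (FC.const 2)).congr fun x _ => by simp
  exact (FCz.sum_unary hP.r (PT.length hP.qs)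
    (F := fun x k => 2 * (vq1 (P x).r (P x).N ((P x).qs.getD k []) (z x) (j x) *
        vq1 (P x).r (P x).N ((P x).qs.getD k []) (z x) (i x) +
      vq0 (P x).r (P x).N ((P x).qs.getD k []) (z x) *
        vq2 (P x).r (P x).N ((P x).qs.getD k []) (z x) (i x) (j x)))
    (FCz.mul hP1.r h2 (FCz.add hP1.r (FCz.mul hP1.r h1' h1) (FCz.mul hP1.r h0 h11)))).congr
      fun x _ => (ev2_eq_sum (P x) (z x) (i x) (j x)).symm

end Vale.Agent.P337
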