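import Mathlib
import Vale.Agent.Lib.P337.Cx.FormB

/-!
P337, complexity side: the gradient system.
-/

namespace Vale.Agent.P337

open Vale.Agent.Lib.Common.PolyTime

variable {α β : Type} [TEnc α] [TEnc β]

variable {P : α → Prm}

theorem CPrm.PT_d (hP : CPrm P) : PT (fun x => (P x).d) :=
  PT.sub (PT.mul (PT.const 2) hP.e) (PT.const 1)

theorem FC_D (hP : CPrm P) : FC (fun x => (P x).D) :=
  (FC.of_PTnat hP.PT_d).powUnary hP.N

theorem FCz_L (hP : CPrm P) : FCz (fun x => (P x).r) (fun x => (((P x).L : ℕ) : ZMod (P x).r)) :=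
  FCz.twoTwoPow hP.r hP.EL

theorem FCz_b (hP : CPrm P) {i : α → ℕ} (hi : PT i) :
    FCz (fun x => (P x).r) (fun x => (((P x).b (i x) : ℕ) : ZMod (P x).r)) := by
  refine (FCz.mul hP.r (FCz.twoTwoPow hP.r hP.Es)
    (FCz.cast hP.r (FC.twoPow (PT.mul hi hP.PT_d)))).congr fun x _ => ?_
  simp only [Prm.b]
  push_cast
  rfl

theorem FC_w (hP : CPrm P) {k : α → ℕ} (hk : FC k) : FC (fun x => (P x).w (k x)) := by
  classical
  have h0 : CHp (fun x : α => k x = 0) := CHp.eq hk (FC.const 0)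
  refine (FC.ite h0 hP.w0 (FC.powmod hP.rho hk hP.q)).congr fun x => ?_
  by_cases h : k x = 0 <;> simp [Prm.w, h]

theorem FCz_gz (hP : CPrm P) {z : α → List BNat} (hz : PT z) :
    FCz (fun x => (P x).r) (fun x => (P x).gz (vec (z x))) := by
  have hr1 : FC (fun p : α × ℕ => (P p.1).r) := hP.r.pre (PT.fst PT.id)
  have hi1 : PT (fun p : α × ℕ => p.2) := PT.snd PT.id
  have hz1 : PT (fun p : α × ℕ => z p.1) := PT.comp (f := z) hz (PT.fst PT.id)
  have he1 : PT (fun p : α × ℕ => (P p.1).e) := PT.comp (f := fun x => (P x).e) hP.e (PT.fst PT.id)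
  have hv1 : FCz (fun p : α × ℕ => (P p.1).r)
      (fun p => ((vec (z p.1) p.2 : ℕ) : ZMod (P p.1).r)) :=
    FCz.cast hr1 (FC.vec hz1 (FC.of_PTnat hi1))
  refine FCz.add hP.r (FCz.add hP.r (FCz.mul hP.r ?_ (FCz_ev0 hP hz)) ?_) ?_
  · refine (FCz.mul hP.r (FCz.cast hP.r (FC.of_PTnat (PT.mul (PT.const 2) hP.e)))
      (FCz_L hP)).congr fun x _ => ?_
    push_cast
    rfl
  · exact FCz.sum_unary hP.r hP.N (F := fun x i => ((vec (z x) i : ℕ) : ZMod (P x).r) ^ (2 * (P x).e))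
      (FCz.pow hr1 hv1 (FC.of_PTnat (PT.mul (PT.const 2) he1)))
  · refine FCz.sum_unary hP.r hP.N
      (F := fun x i => ((2 * (P x).e * (P x).b i : ℕ) : ZMod (P x).r) *
        ((vec (z x) i : ℕ) : ZMod (P x).r)) ?_
    refine FCz.mul hr1 ((FCz.mul hr1 (FCz.cast hr1 (FC.of_PTnat (PT.mul (PT.const 2) he1)))
      (FCz_b (P := fun p : α × ℕ => P p.1) (hP.pre (PT.fst PT.id)) hi1)).congr fun x _ => ?_) hv1
    push_cast
    rfl

theorem FCz_Hz (hP : CPrm P) {z : α → List BNat} (hz : PT z) {i : α → ℕ} (hi : PT i) :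
    FCz (fun x => (P x).r) (fun x => (P x).Hz (i x) (vec (z x))) :=
  FCz.sub hP.r (FCz.neg hP.r (FCz.mul hP.r (FCz_L hP) (FCz_ev1 hP hz hi))) (FCz_b hP hi)

theorem FCz_Jent (hP : CPrm P) {z : α → List BNat} (hz : PT z) {i j : α → ℕ} (hi : PT i)
    (hj : PT j) : FCz (fun x => (P x).r) (fun x => (P x).Jent (i x) (j x) (vec (z x))) := by
  classical
  have h0 : CHp (fun x : α => i x = j x) := CHp.eq (FC.of_PTnat hi) (FC.of_PTnat hj)
  have hzero : FCz (fun x => (P x).r) (fun _ => 0) :=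
    (FCz.cast hP.r (FC.const 0)).congr (fun a _ => by simp)
  have h1 : FCz (fun x => (P x).r) (fun x => if i x = j x then
      (((P x).d : ℕ) : ZMod (P x).r) * ((vec (z x) (i x) : ℕ) : ZMod (P x).r) ^ ((P x).d - 1)
      else 0) := by
    refine (FCz.ite h0 (FCz.mul hP.r (FCz.cast hP.r (FC.of_PTnat hP.PT_d))
      (FCz.pow hP.r (FCz.cast hP.r (FC.vec hz (FC.of_PTnat hi)))
        (FC.of_PTnat (PT.sub hP.PT_d (PT.const 1))))) hzero).congr fun x _ => ?_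
    by_cases h : i x = j x <;> simp [h]
  exact FCz.add hP.r h1 (FCz.mul hP.r (FCz_L hP) (FCz_ev2 hP hz hi hj))

theorem FCz_Jz (hP : CPrm P) {z : α → List BNat} (hz : PT z) :
    FCz (fun x => (P x).r) (fun x => (P x).Jz (vec (z x))) := by
  refine FCz.det hP.r hP.N (A := fun x i j => (P x).Jent i j (vec (z x))) ?_
  exact FCz_Jent (P := fun p : α × (ℕ × ℕ) => P p.1) (hP.pre (PT.fst PT.id))
    (z := fun p => z p.1) (PT.comp (f := z) hz (PT.fst PT.id))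
    (i := fun p => p.2.1) (j := fun p => p.2.2) (PT.fst (PT.snd PT.id)) (PT.snd (PT.snd PT.id))

theorem FCz_Tz (hP : CPrm P) {z : α → List BNat} (hz : PT z) :
    FCz (fun x => (P x).r) (fun x => (P x).Tz (vec (z x))) := by
  have hr1 : FC (fun p : α × ℕ => (P p.1).r) := hP.r.pre (PT.fst PT.id)
  have hr2 : FC (fun p : (α × ℕ) × BNat => (P p.1.1).r) := hP.r.pre (PT.fst (PT.fst PT.id))
  have hP2 : CPrm (fun p : (α × ℕ) × BNat => P p.1.1) := hP.pre (PT.fst (PT.fst PT.id))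
  have hz2 : PT (fun p : (α × ℕ) × BNat => z p.1.1) :=
    PT.comp (f := z) hz (PT.fst (PT.fst PT.id))
  have hi2 : PT (fun p : (α × ℕ) × BNat => p.1.2) := PT.snd (PT.fst PT.id)
  have hk2 : FC (fun p : (α × ℕ) × BNat => p.2.v) := FC.of_PT (PT.snd PT.id)
  have hv2 : FCz (fun p : (α × ℕ) × BNat => (P p.1.1).r)
      (fun p => ((vec (z p.1.1) p.1.2 : ℕ) : ZMod (P p.1.1).r)) :=
    FCz.cast hr2 (FC.vec hz2 (FC.of_PTnat hi2))
  have hin : FCz (fun p : α × ℕ => (P p.1).r) (fun p =>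
      ∑ k ∈ Finset.range ((P p.1).K + 1), (P p.1).Hz p.2 (vec (z p.1)) ^ k *
        (((vec (z p.1) p.2 : ℕ) : ZMod (P p.1).r)⁻¹) ^ ((P p.1).d * (k + 1) - 1)) := by
    refine FCz.sum_range hr1 ((hP.K.add (FC.const 1)).pre (PT.fst PT.id))
      (F := fun p k => (P p.1).Hz p.2 (vec (z p.1)) ^ k *
        (((vec (z p.1) p.2 : ℕ) : ZMod (P p.1).r)⁻¹) ^ ((P p.1).d * (k + 1) - 1)) ?_
    exact FCz.mul hr2 (FCz.pow hr2 (FCz_Hz hP2 hz2 hi2) hk2)
      (FCz.pow hr2 (FCz.inv hr2 hv2) (((FC.of_PTnat hP2.PT_d).mul (hk2.add (FC.const 1))).sub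
        (FC.const 1)))
  exact FCz.mul hP.r (FCz_Jz hP hz) (FCz.prod_unary hP.r hP.N
    (F := fun x i => ∑ k ∈ Finset.range ((P x).K + 1), (P x).Hz i (vec (z x)) ^ k *
      (((vec (z x) i : ℕ) : ZMod (P x).r)⁻¹) ^ ((P x).d * (k + 1) - 1)) hin)

end Vale.Agent.P337
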