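import Mathlib
import Vale.Agent.Lib.P337.Cx.FormC

/-!
P337, complexity side: traces, elementary symmetric functions, derivatives.
-/

namespace Vale.Agent.P337

open Vale.Agent.Lib.Common.PolyTime

variable {α β : Type} [TEnc α] [TEnc β]

theorem FCz.natConst {r : α → ℕ} (hr : FC r) (n : ℕ) :
    FCz r (fun a => ((n : ℕ) : ZMod (r a))) := FCz.cast hr (FC.const n)

theorem FCz.oneC {r : α → ℕ} (hr : FC r) : FCz r (fun _ => 1) :=
  (FCz.natConst hr 1).congr fun a _ => by simp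

theorem FCz.negOneC {r : α → ℕ} (hr : FC r) : FCz r (fun _ => -1) := FCz.neg hr (FCz.oneC hr)

theorem FCz.factC {r : α → ℕ} (hr : FC r) {l : α → ℕ} (hl : FC l) :
    FCz r (fun a => (((l a).factorial : ℕ) : ZMod (r a))) := by
  refine (FCz.prod_range hr hl (F := fun a i => (((i + 1 : ℕ) : ℕ) : ZMod (r a))) ?_).congr ?_
  · exact FCz.cast (hr.pre (PT.fst PT.id)) ((FC.of_PT (PT.snd PT.id)).add (FC.const 1))
  · intro a _
    rw [← Finset.prod_range_add_one_eq_factorial]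
    push_cast
    rfl

theorem FCz.descFactC {r : α → ℕ} (hr : FC r) {n k : α → ℕ} (hn : FC n) (hk : FC k) :
    FCz r (fun a => (((n a).descFactorial (k a) : ℕ) : ZMod (r a))) := by
  refine (FCz.prod_range hr hk (F := fun a i => (((n a - i : ℕ) : ℕ) : ZMod (r a))) ?_).congr ?_
  · exact FCz.cast (hr.pre (PT.fst PT.id)) ((hn.pre (PT.fst PT.id)).sub (FC.of_PT (PT.snd PT.id)))
  · intro a _
    rw [Nat.descFactorial_eq_prod_range]
    push_cast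
    rfl

variable {P : α → Prm}

theorem FCz_trz (hP : CPrm P) {F : ∀ x, (ℕ → ℕ) → ZMod (P x).r}
    (hF : FCz (fun p : α × List BNat => (P p.1).r) (fun p => F p.1 (vec p.2))) :
    FCz (fun x => (P x).r) (fun x => (P x).trz (F x)) := by
  have hsum := FCz.sum_vec hP.r hP.N (FC.const 1) hP.r
    (F := fun x v => F x v * (P x).Tz v)
    (FCz.mul (hP.r.pre (PT.fst PT.id)) hF (FCz_Tz (hP.pre (PT.fst PT.id)) (PT.snd PT.id)))
  exact FCz.mul hP.r (FCz.pow hP.r (FCz.negOneC hP.r) (FC.of_PTnat hP.N)) hsum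

theorem FCz_pw (hP : CPrm P) {j : α → ℕ} (hj : FC j) :
    FCz (fun x => (P x).r) (fun x => (P x).pw (j x)) :=
  FCz_trz hP (F := fun x z => (P x).gz z ^ j x)
    (FCz.pow (hP.r.pre (PT.fst PT.id)) (FCz_gz (hP.pre (PT.fst PT.id)) (PT.snd PT.id))
      (hj.pre (PT.fst PT.id)))

theorem FCz_expF (hP : CPrm P) {S : ∀ x, ℕ → ZMod (P x).r}
    (hS : FCz (fun p : α × BNat => (P p.1).r) (fun p => S p.1 p.2.v)) {j : α → ℕ} (hj : FC j) :
    FCz (fun x => (P x).r) (fun x => (P x).expF (S x) (j x)) := by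
  have hr1 : FC (fun p : α × BNat => (P p.1).r) := hP.r.pre (PT.fst PT.id)
  have hr2 : FC (fun p : (α × BNat) × BNat => (P p.1.1).r) := hP.r.pre (PT.fst (PT.fst PT.id))
  have hr3 : FC (fun p : ((α × BNat) × BNat) × BNat => (P p.1.1.1).r) :=
    hP.r.pre (PT.fst (PT.fst (PT.fst PT.id)))
  have hi3 : FC (fun p : ((α × BNat) × BNat) × BNat => p.2.v) := FC.of_PT (PT.snd PT.id)
  have hx3 : FC (fun p : ((α × BNat) × BNat) × BNat => p.1.2.v) :=
    FC.of_PT (PT.snd (PT.fst PT.id))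
  have hS3 : FCz (fun p : ((α × BNat) × BNat) × BNat => (P p.1.1.1).r)
      (fun p => S p.1.1.1 p.2.v) :=
    hS.pre (φ := fun p : ((α × BNat) × BNat) × BNat => (p.1.1.1, p.2))
      (PT.pair (PT.fst (PT.fst (PT.fst PT.id))) (PT.snd PT.id))
  have h3 : FCz (fun p : (α × BNat) × BNat => (P p.1.1).r) (fun p =>
      ∑ i ∈ Finset.Ico 1 ((P p.1.1).D + 1), (-1) ^ (i - 1) * S p.1.1 i *
        ((i : ℕ) : ZMod (P p.1.1).r)⁻¹ * ((p.2.v : ℕ) : ZMod (P p.1.1).r) ^ i) := by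
    refine FCz.sum_Ico hr2 (FC.const 1)
      (((FC_D hP).pre (PT.fst (PT.fst PT.id))).add (FC.const 1))
      (F := fun p i => (-1) ^ (i - 1) * S p.1.1 i *
        ((i : ℕ) : ZMod (P p.1.1).r)⁻¹ * ((p.2.v : ℕ) : ZMod (P p.1.1).r) ^ i) ?_
    exact FCz.mul hr3 (FCz.mul hr3 (FCz.mul hr3
      (FCz.pow hr3 (FCz.negOneC hr3) (hi3.sub (FC.const 1))) hS3)
      (FCz.inv hr3 (FCz.cast hr3 hi3))) (FCz.pow hr3 (FCz.cast hr3 hx3) hi3)
  have hl2 : FC (fun p : (α × BNat) × BNat => p.1.2.v) := FC.of_PT (PT.snd (PT.fst PT.id))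
  have hx2 : FC (fun p : (α × BNat) × BNat => p.2.v) := FC.of_PT (PT.snd PT.id)
  have hj2 : FC (fun p : (α × BNat) × BNat => j p.1.1) := hj.pre (PT.fst (PT.fst PT.id))
  have h2 : FCz (fun p : α × BNat => (P p.1).r) (fun p =>
      ∑ x ∈ Finset.Ico 1 (P p.1).r,
      (∑ i ∈ Finset.Ico 1 ((P p.1).D + 1), (-1) ^ (i - 1) * S p.1 i *
        ((i : ℕ) : ZMod (P p.1).r)⁻¹ * ((x : ℕ) : ZMod (P p.1).r) ^ i) ^ p.2.v *
        (((x : ℕ) : ZMod (P p.1).r)⁻¹) ^ (j p.1)) := by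
    refine FCz.sum_Ico hr1 (FC.const 1) hr1
      (F := fun p x => (∑ i ∈ Finset.Ico 1 ((P p.1).D + 1), (-1) ^ (i - 1) * S p.1 i *
        ((i : ℕ) : ZMod (P p.1).r)⁻¹ * ((x : ℕ) : ZMod (P p.1).r) ^ i) ^ p.2.v *
        (((x : ℕ) : ZMod (P p.1).r)⁻¹) ^ (j p.1)) ?_
    exact FCz.mul hr2 (FCz.pow hr2 h3 hl2) (FCz.pow hr2 (FCz.inv hr2 (FCz.cast hr2 hx2)) hj2)
  refine FCz.sum_range hP.r (hj.add (FC.const 1))
    (F := fun a l => ((l.factorial : ℕ) : ZMod (P a).r)⁻¹ *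
    (-∑ x ∈ Finset.Ico 1 (P a).r,
      (∑ i ∈ Finset.Ico 1 ((P a).D + 1),
        (-1) ^ (i - 1) * S a i * ((i : ℕ) : ZMod (P a).r)⁻¹ * ((x : ℕ) : ZMod (P a).r) ^ i) ^ l *
        (((x : ℕ) : ZMod (P a).r)⁻¹) ^ (j a))) ?_
  exact FCz.mul hr1 (FCz.inv hr1 (FCz.factC hr1 (FC.of_PT (PT.snd PT.id)))) (FCz.neg hr1 h2)

theorem FCz_fd (hP : CPrm P) {k : α → ℕ} (hk : FC k) {X : ∀ x, ZMod (P x).r}
    (hX : FCz (fun x => (P x).r) X) : FCz (fun x => (P x).r) (fun x => (P x).fd (k x) (X x)) := by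
  have hr1 : FC (fun p : α × BNat => (P p.1).r) := hP.r.pre (PT.fst PT.id)
  have hD1 : FC (fun p : α × BNat => (P p.1).D) := (FC_D hP).pre (PT.fst PT.id)
  have hj1 : FC (fun p : α × BNat => p.2.v) := FC.of_PT (PT.snd PT.id)
  have hk1 : FC (fun p : α × BNat => k p.1) := hk.pre (PT.fst PT.id)
  have hX1 : FCz (fun p : α × BNat => (P p.1).r) (fun p => X p.1) := hX.pre (PT.fst PT.id)
  have hpw : FCz (fun p : (α × BNat) × BNat => (P p.1.1).r) (fun p => (P p.1.1).pw p.2.v) :=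
    FCz_pw (P := fun p : (α × BNat) × BNat => P p.1.1) (hP.pre (PT.fst (PT.fst PT.id)))
      (FC.of_PT (PT.snd PT.id))
  have hexp : FCz (fun p : α × BNat => (P p.1).r) (fun p => (P p.1).expF (P p.1).pw p.2.v) :=
    FCz_expF (P := fun p : α × BNat => P p.1) (hP.pre (PT.fst PT.id))
      (S := fun p => (P p.1).pw) hpw hj1
  refine FCz.sum_range hP.r ((FC_D hP).add (FC.const 1))
    (F := fun a j => (-1) ^ j * (P a).expF (P a).pw j *
    ((((P a).D - j).descFactorial (k a) : ℕ) : ZMod (P a).r) * (X a) ^ ((P a).D - j - k a)) ?_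
  exact FCz.mul hr1 (FCz.mul hr1 (FCz.mul hr1 (FCz.pow hr1 (FCz.negOneC hr1) hj1) hexp)
    (FCz.descFactC hr1 (hD1.sub hj1) hk1)) (FCz.pow hr1 hX1 ((hD1.sub hj1).sub hk1))

end Vale.Agent.P337
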