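import Mathlib
import Vale.Agent.Lib.P337.Cx.FormD

/-!
P337, complexity side: the isolating polynomial and the final formula.
-/

namespace Vale.Agent.P337

open Vale.Agent.Lib.Common.PolyTime

variable {α β : Type} [TEnc α] [TEnc β]

variable {P : α → Prm}

theorem FCz_yz (hP : CPrm P) {k : α → ℕ} (hk : FC k) {X : ∀ x, ZMod (P x).r}
    (hX : FCz (fun x => (P x).r) X) : FCz (fun x => (P x).r) (fun x => (P x).yz (k x) (X x)) := by
  classical
  have h0 : CHp (fun x : α => k x = 0) := CHp.eq hk (FC.const 0)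
  have h1 : FCz (fun x => (P x).r) (fun x => if k x = 0 then
      ((2 ^ 2 ^ (P x).EC : ℕ) : ZMod (P x).r) - X x else (P x).fd (k x) (X x)) :=
    (FCz.ite h0 (FCz.sub hP.r (FCz.twoTwoPow hP.r hP.EC) hX) (FCz_fd hP hk hX)).congr
      fun x _ => by
        by_cases h : k x = 0 <;> simp [h]
  exact FCz.mul hP.r (FCz.twoTwoPow hP.r hP.ES) h1

theorem FCz.twoPowC {r : α → ℕ} (hr : FC r) {i : α → ℕ} (hi : FC i) :
    FCz r (fun a => 2 ^ i a) :=
  (FCz.pow hr (FCz.natConst hr 2) hi).congr fun a _ => by simp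

theorem FCz_Pmz (hP : CPrm P) {X : ∀ x, ZMod (P x).r}
    (hX : FCz (fun x => (P x).r) X) : FCz (fun x => (P x).r) (fun x => (P x).Pmz (X x)) := by
  have hr1 : FC (fun p : α × BNat => (P p.1).r) := hP.r.pre (PT.fst PT.id)
  have hX1 : FCz (fun p : α × BNat => (P p.1).r) (fun p => X p.1) := hX.pre (PT.fst PT.id)
  refine FCz.prod_range hP.r (hP.M.add (FC.const 1))
    (F := fun a i => (X a - 2 ^ i) ^ (2 * (P a).kap)) ?_
  exact FCz.pow hr1 (FCz.sub hr1 hX1 (FCz.twoPowC hr1 (FC.of_PT (PT.snd PT.id))))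
    (((FC.const 2).mul hP.kap).pre (PT.fst PT.id))

theorem FCz_Ppz (hP : CPrm P) {X : ∀ x, ZMod (P x).r}
    (hX : FCz (fun x => (P x).r) X) : FCz (fun x => (P x).r) (fun x => (P x).Ppz (X x)) := by
  have hr1 : FC (fun p : α × BNat => (P p.1).r) := hP.r.pre (PT.fst PT.id)
  have hX1 : FCz (fun p : α × BNat => (P p.1).r) (fun p => X p.1) := hX.pre (PT.fst PT.id)
  refine FCz.prod_range hP.r (hP.M.add (FC.const 1))
    (F := fun a i => (X a + 2 ^ i) ^ (2 * (P a).kap)) ?_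
  exact FCz.pow hr1 (FCz.add hr1 hX1 (FCz.twoPowC hr1 (FC.of_PT (PT.snd PT.id))))
    (((FC.const 2).mul hP.kap).pre (PT.fst PT.id))

theorem FCz_Bz (hP : CPrm P) {k : α → ℕ} (hk : FC k) {X : ∀ x, ZMod (P x).r}
    (hX : FCz (fun x => (P x).r) X) : FCz (fun x => (P x).r) (fun x => (P x).Bz (k x) (X x)) := by
  have hy := FCz_yz hP hk hX
  exact FCz.add hP.r (FCz.mul hP.r (FCz.cast hP.r hP.a) (FCz_Pmz hP hy))
    (FCz.mul hP.r (FCz.cast hP.r hP.a') (FCz_Ppz hP hy))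

theorem FCz_PPz (hP : CPrm P) {X : ∀ x, ZMod (P x).r}
    (hX : FCz (fun x => (P x).r) X) : FCz (fun x => (P x).r) (fun x => (P x).PPz (X x)) := by
  classical
  have hr1 : FC (fun p : α × BNat => (P p.1).r) := hP.r.pre (PT.fst PT.id)
  have hr2 : FC (fun p : (α × BNat) × BNat => (P p.1.1).r) := hP.r.pre (PT.fst (PT.fst PT.id))
  have hX1 : FCz (fun p : α × BNat => (P p.1).r) (fun p => X p.1) := hX.pre (PT.fst PT.id)
  have hX2 : FCz (fun p : (α × BNat) × BNat => (P p.1.1).r) (fun p => X p.1.1) :=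
    hX.pre (PT.fst (PT.fst PT.id))
  have hP1 : CPrm (fun p : α × BNat => P p.1) := hP.pre (PT.fst PT.id)
  have hP2 : CPrm (fun p : (α × BNat) × BNat => P p.1.1) := hP.pre (PT.fst (PT.fst PT.id))
  have hk1 : FC (fun p : α × BNat => p.2.v) := FC.of_PT (PT.snd PT.id)
  have hk2 : FC (fun p : (α × BNat) × BNat => p.1.2.v) := FC.of_PT (PT.snd (PT.fst PT.id))
  have hj2 : FC (fun p : (α × BNat) × BNat => p.2.v) := FC.of_PT (PT.snd PT.id)
  have hB2 : FCz (fun p : (α × BNat) × BNat => (P p.1.1).r)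
      (fun p => (P p.1.1).Bz p.2.v (X p.1.1)) := FCz_Bz hP2 hj2 hX2
  have hB1 : FCz (fun p : α × BNat => (P p.1).r) (fun p => (P p.1).Bz p.2.v (X p.1)) :=
    FCz_Bz hP1 hk1 hX1
  have hprod1 : FCz (fun p : α × BNat => (P p.1).r) (fun p =>
      ∏ j ∈ Finset.range (P p.1).D, if j = p.2.v then 1 else (P p.1).Bz j (X p.1)) := by
    refine FCz.prod_range hr1 ((FC_D hP).pre (PT.fst PT.id))
      (F := fun p j => if j = p.2.v then 1 else (P p.1).Bz j (X p.1)) ?_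
    refine (FCz.ite (CHp.eq hj2 hk2) (FCz.oneC hr2) hB2).congr fun x _ => ?_
    by_cases h : x.2.v = x.1.2.v <;> simp [h]
  have hprod : FCz (fun x : α => (P x).r) (fun x =>
      ∏ j ∈ Finset.range (P x).D, (P x).Bz j (X x)) :=
    FCz.prod_range hP.r (FC_D hP) (F := fun x j => (P x).Bz j (X x)) hB1
  refine FCz.sub hP.r ?_ (FCz.mul hP.r (FCz.cast hP.r hP.Th) hprod)
  refine FCz.sum_range hP.r (FC_D hP)
    (F := fun x k => ((((P x).Z * (P x).w k * (P x).a : ℕ)) : ZMod (P x).r) *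
      (P x).Pmz ((P x).yz k (X x)) *
      ∏ j ∈ Finset.range (P x).D, if j = k then 1 else (P x).Bz j (X x)) ?_
  exact FCz.mul hr1 (FCz.mul hr1 (FCz.cast hr1 ((hP1.Z.mul (FC_w hP1 hk1)).mul hP1.a))
    (FCz_Pmz hP1 (FCz_yz hP1 hk1 hX1))) hprod1

theorem FCz_form (hP : CPrm P) : FCz (fun x => (P x).r) (fun x => (P x).form) := by
  have hP2 : CPrm (fun p : (α × BNat) × List BNat => P p.1.1) :=
    hP.pre (PT.fst (PT.fst PT.id))
  have hr2 : FC (fun p : (α × BNat) × List BNat => (P p.1.1).r) := hP2.r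
  have hk2 : FC (fun p : (α × BNat) × List BNat => p.1.2.v) := FC.of_PT (PT.snd (PT.fst PT.id))
  have hg : FCz (fun p : (α × BNat) × List BNat => (P p.1.1).r)
      (fun p => (P p.1.1).gz (vec p.2)) :=
    FCz_gz hP2 (PT.snd PT.id)
  refine FCz_expF hP (S := fun x k => (P x).trz (fun z => (P x).PPz ((P x).gz z) ^ k)) ?_ (FC_D hP)
  exact FCz_trz (P := fun p : α × BNat => P p.1) (hP.pre (PT.fst PT.id))
    (F := fun p z => (P p.1).PPz ((P p.1).gz z) ^ p.2.v)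
    (FCz.pow hr2 (FCz_PPz hP2 hg) hk2)

end Vale.Agent.P337
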