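import Mathlib
import Vale.Agent.Lib.P337.Cx.Choice
import Vale.Agent.Lib.P337.Cx.FCForm

/-!
P337: the parameters are computable.
-/

namespace Vale.Agent.P337

open Vale.Agent.Lib.Common.PolyTime

theorem FC_DI : FC DI :=
  (FC.of_PTnat (PT.sub (PT.mul (PT.const 2) PT_eI) (PT.const 1))).powUnary (PT.fst PT.id)

theorem FC_w0I : FC w0I :=
  (((FC.const 6).mul FC_DI).mul ((FC_DI.powUnary (PT.const 3)).add (FC.const 3))).add (FC.const 4)

theorem FC_ZI : FC ZI := (FC.const 8).mul (FC_DI.add (FC.const 2))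

theorem FC_aI : FC aI :=
  ((FC.const 32).mul ((FC_DI.powUnary (PT.const 2)).add (FC.const 1))).mul
    ((FC_DI.mul (((FC.const 2).mul (FC_DI.powUnary (PT.const 3))).add (FC.const 6))).add FC_w0I)

/-- the context: instance and guessed parameters `a', Th, rho, q` -/
abbrev Ctx := Inst × (BNat × BNat × BNat × BNat)

/-- the parameter record of a context and a modulus -/
def mkPrm (Es EC EL ES EM Ek : Inst → ℕ) (c : Ctx) (r : ℕ) : Prm where
  N := c.1.1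
  e := eI c.1
  EL := EL c.1
  Es := Es c.1
  ES := ES c.1
  EC := EC c.1
  qs := c.1.2
  K := 2 * eI c.1 * DI c.1 * (DI c.1 * (DI c.1 * (2 * Ek c.1 * (2 ^ EM c.1 + 1))) + 1) +
    c.1.1 * (2 * eI c.1 - 1 - 1)
  M := 2 ^ EM c.1
  kap := Ek c.1
  a := aI c.1
  a' := c.2.1.v
  Z := ZI c.1
  Th := c.2.2.1.v
  w0 := w0I c.1
  rho := c.2.2.2.1.v
  q := c.2.2.2.2.v
  r := r

theorem CPrm_mkPrm {Es EC EL ES EM Ek : Inst → ℕ} (h1 : PT Es) (h2 : PT EC) (h3 : PT EL)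
    (h4 : PT ES) (h5 : PT EM) (h6 : PT Ek) :
    CPrm (fun p : Ctx × BNat => mkPrm Es EC EL ES EM Ek p.1 p.2.v) := by
  have hI : PT (fun p : Ctx × BNat => p.1.1) := PT.fst (PT.fst PT.id)
  have he : PT (fun p : Ctx × BNat => eI p.1.1) := PT.comp (f := eI) PT_eI hI
  have hN : PT (fun p : Ctx × BNat => p.1.1.1) := PT.fst hI
  have hc : PT (fun p : Ctx × BNat => p.1.2) := PT.snd (PT.fst PT.id)
  have hD : FC (fun p : Ctx × BNat => DI p.1.1) := FC_DI.pre hI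
  have hM : FC (fun p : Ctx × BNat => 2 ^ EM p.1.1) := FC.twoPow (PT.comp (f := EM) h5 hI)
  have hk : FC (fun p : Ctx × BNat => Ek p.1.1) := FC.of_PTnat (PT.comp (f := Ek) h6 hI)
  exact {
    N := hN
    e := he
    EL := PT.comp (f := EL) h3 hI
    Es := PT.comp (f := Es) h1 hI
    ES := PT.comp (f := ES) h4 hI
    EC := PT.comp (f := EC) h2 hI
    qs := PT.snd hI
    K := by
      refine FC.add (FC.mul (FC.mul (FC.of_PTnat (PT.mul (PT.const 2) he)) hD)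
        (FC.add (FC.mul hD (FC.mul hD (FC.mul (FC.mul (FC.const 2) hk)
          (FC.add hM (FC.const 1))))) (FC.const 1))) (FC.of_PTnat (PT.mul hN ?_))
      exact PT.sub (PT.sub (PT.mul (PT.const 2) he) (PT.const 1)) (PT.const 1)
    M := hM
    kap := hk
    a := FC_aI.pre hI
    a' := FC.of_PT (PT.fst hc)
    Z := FC_ZI.pre hI
    Th := FC.of_PT (PT.fst (PT.snd hc))
    w0 := FC_w0I.pre hI
    rho := FC.of_PT (PT.fst (PT.snd (PT.snd hc)))
    q := FC.of_PT (PT.snd (PT.snd (PT.snd hc)))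
    r := FC.of_PT (PT.snd PT.id) }

/-- the constraints on the guessed parameters -/
def okC (c : Ctx) : Prop :=
  aI c.1 ≤ c.2.1.v ∧ c.2.1.v ≤ 2 * aI c.1 ∧ 3 * c.2.2.1.v < ZI c.1 * w0I c.1 ∧
    c.2.2.2.1.v < c.2.2.2.2.v ∧ c.2.2.2.2.v ≤ 2 * DI c.1 ^ 3 + 6

theorem CHp_okC : CHp okC := by
  have hI : PT (fun c : Ctx => c.1) := PT.fst PT.id
  have hc : PT (fun c : Ctx => c.2) := PT.snd PT.id
  have ha : FC (fun c : Ctx => c.2.1.v) := FC.of_PT (PT.fst hc)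
  have hT : FC (fun c : Ctx => c.2.2.1.v) := FC.of_PT (PT.fst (PT.snd hc))
  have hr : FC (fun c : Ctx => c.2.2.2.1.v) := FC.of_PT (PT.fst (PT.snd (PT.snd hc)))
  have hq : FC (fun c : Ctx => c.2.2.2.2.v) := FC.of_PT (PT.snd (PT.snd (PT.snd hc)))
  refine CHp.and (CHp.le (FC_aI.pre hI) ha) (CHp.and (CHp.le ha ((FC.const 2).mul (FC_aI.pre hI)))
    (CHp.and (CHp.lt ((FC.const 3).mul hT) ((FC_ZI.mul FC_w0I).pre hI))
      (CHp.and (CHp.lt hr hq) (CHp.le hq ?_))))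
  exact ((FC.const 2).mul ((FC_DI.pre hI).powUnary (PT.const 3))).add (FC.const 6)

end Vale.Agent.P337
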