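import Mathlib
import Vale.Agent.Lib.P337.Cx.Choice

/-!
P337: choice of the doubly exponential parameters.
-/

namespace Vale.Agent.P337

open Vale.Agent.Lib.Common.PolyTime

theorem choiceC_SE_d : SE (fun I : Inst => 2 * eI I - 1) :=
  SE.mono (SE.mul (SE.const 2) (SE.of_PT PT_eI)) fun _ => Nat.sub_le _ _

theorem choiceC_SE_N : SE (fun I : Inst => I.1) := SE.of_PT (by fun_prop)

theorem choiceC_SE_D : SE (fun I : Inst => (2 * eI I - 1) ^ I.1) :=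
  SE.pow choiceC_SE_d (by fun_prop)

theorem choiceC_SE_e : SE eI := SE.of_PT PT_eI

theorem choiceC_SE_B : SE (fun I : Inst => 2 ^ (I.1 * (2 * eI I - 1))) := by
  have h := PT_eI
  exact SE.twoPow (PT.mul (by fun_prop) (PT.sub (PT.mul (by fun_prop) h) (by fun_prop)))

/-- the bound `thU` is doubly exponential -/
theorem choiceC_DE_thU {Q lam B : Inst → ℕ} (hQ : DE Q) (hlam : DE lam) (hB : DE B) :
    DE (fun I => thU I.1 (eI I) (Q I) (lam I) (B I)) := by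
  have he := choiceC_SE_e.toDE
  have hN := choiceC_SE_N.toDE
  unfold thU
  exact DE.mul
    (DE.add (DE.add (DE.add (DE.mul (DE.mul (DE.mul (DE.const 2) he) hlam) hQ) hN)
      (DE.mul (DE.mul (DE.mul (DE.const 2) he) hN) hB)) (DE.const 1))
    (DE.pow (DE.add (DE.add (DE.mul (DE.mul (DE.mul (DE.const 2) he) hQ) hlam) hB) (DE.const 1))
      (SE.mul (SE.const 2) choiceC_SE_e))

theorem choiceC_DE_nodup {Q B : Inst → ℕ} (hQ : DE Q) (hB : DE B) :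
    DE (fun I : Inst => ((2 * eI I - 1) ^ I.1 * ((2 * eI I - 1) ^ I.1 *
      thU I.1 (eI I) (Q I) 1 (B I) ^ (2 * (2 * eI I - 1) ^ I.1))) ^ ((2 * eI I - 1) ^ I.1) + 1) :=
  DE.add (DE.pow (DE.mul choiceC_SE_D.toDE (DE.mul choiceC_SE_D.toDE
    (DE.pow (choiceC_DE_thU hQ (DE.const 1) hB) (SE.mul (SE.const 2) choiceC_SE_D))))
    choiceC_SE_D) (DE.const 1)

theorem choiceC_DE_thY {C u : Inst → ℕ} (hC : DE C) (hu : DE u) :
    DE (fun I : Inst => thY (DI I) (C I) (u I)) := by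
  have hD : SE DI := choiceC_SE_D
  unfold thY
  exact DE.add (DE.add (DE.pow (DE.mul hD.toDE (DE.add (DE.mul (DE.const 2) hu) (DE.const 1))) hD)
    hC) hu

/-- the doubly exponential parameters -/
theorem exists_choice (EQ : Inst → ℕ) (hEQ : PT EQ) :
    ∃ Es EC EL ES EM Ek : Inst → ℕ, PT Es ∧ PT EC ∧ PT EL ∧ PT ES ∧ PT EM ∧ PT Ek ∧
      ∀ I : Inst,
        thS I.1 (eI I) (2 ^ EQ I) < 2 ^ 2 ^ Es I ∧
        thC I.1 (eI I) (2 ^ EQ I) (2 ^ 2 ^ Es I) < 2 ^ 2 ^ EC I ∧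
        thL1 I.1 (eI I) (2 ^ EQ I) (2 ^ 2 ^ Es I) < 2 ^ 2 ^ EL I ∧
        thL2 I.1 (eI I) (2 ^ EQ I) (2 ^ 2 ^ Es I) (2 ^ 2 ^ EC I) < 2 ^ 2 ^ EL I ∧
        thY (DI I) (2 ^ 2 ^ EC I)
          (thu I.1 (eI I) (2 ^ EQ I) (2 ^ 2 ^ Es I) (2 ^ 2 ^ EL I)) ^ DI I ≤ 2 ^ 2 ^ ES I ∧
        2 ^ 2 ^ ES I * thY (DI I) (2 ^ 2 ^ EC I)
          (thu I.1 (eI I) (2 ^ EQ I) (2 ^ 2 ^ Es I) (2 ^ 2 ^ EL I)) ≤ 2 ^ (2 ^ EM I + 1) ∧
        64 * (DI I * (2 * DI I ^ 3 + 6) + w0I I) ≤ 2 ^ Ek I := by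
  have hQ : DE (fun I : Inst => 2 ^ EQ I) := (SE.twoPow hEQ).toDE
  have he := choiceC_SE_e.toDE
  have hN := choiceC_SE_N.toDE
  have hD : SE DI := choiceC_SE_D
  have hB := choiceC_SE_B.toDE
  have h1 : DE (fun _ : Inst => 1) := DE.const 1
  have h2 : DE (fun _ : Inst => 2) := DE.const 2
  -- the threshold for `s`
  have hS : DE (fun I : Inst => thS I.1 (eI I) (2 ^ EQ I)) := by
    unfold thS
    exact choiceC_DE_nodup hQ hB
  obtain ⟨Es, hEs, hEs'⟩ := hS.exists_lt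
  have hs : DE (fun I : Inst => 2 ^ 2 ^ Es I) := DE.twoTwoPow hEs
  have hsB : DE (fun I : Inst => 2 ^ 2 ^ Es I * 2 ^ (I.1 * (2 * eI I - 1))) := DE.mul hs hB
  have hU : DE (fun I : Inst => thU I.1 (eI I) (2 ^ EQ I) 1 0) :=
    choiceC_DE_thU hQ h1 (DE.const 0)
  -- the threshold for `C`
  have hC : DE (fun I : Inst => thC I.1 (eI I) (2 ^ EQ I) (2 ^ 2 ^ Es I)) := by
    unfold thC
    exact DE.mul (DE.add (DE.pow (DE.add h1 hU) choiceC_SE_D) h1)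
      (DE.add h1 (DE.mul (DE.mul (DE.mul h2 he) hN) hsB))
  obtain ⟨EC, hEC, hEC'⟩ := hC.exists_lt
  have hc : DE (fun I : Inst => 2 ^ 2 ^ EC I) := DE.twoTwoPow hEC
  -- the thresholds for `L`
  have hL1 : DE (fun I : Inst => thL1 I.1 (eI I) (2 ^ EQ I) (2 ^ 2 ^ Es I)) := by
    unfold thL1
    exact choiceC_DE_nodup hQ hsB
  have hL2 : DE (fun I : Inst => thL2 I.1 (eI I) (2 ^ EQ I) (2 ^ 2 ^ Es I) (2 ^ 2 ^ EC I)) := by
    unfold thL2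
    exact DE.add (DE.pow (DE.add (DE.mul h2 (DE.add hc (DE.mul hN
      (DE.pow (DE.add (DE.mul (DE.mul (DE.const 4) he) hsB) h1) (SE.const 2))))) hU)
      choiceC_SE_D) h1
  obtain ⟨EL, hEL, hEL'⟩ := (DE.add hL1 hL2).exists_lt
  have hL : DE (fun I : Inst => 2 ^ 2 ^ EL I) := DE.twoTwoPow hEL
  have hu : DE (fun I : Inst =>
      thu I.1 (eI I) (2 ^ EQ I) (2 ^ 2 ^ Es I) (2 ^ 2 ^ EL I)) := by
    unfold thu
    exact choiceC_DE_thU hQ hL hsB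
  have hY : DE (fun I : Inst => thY (DI I) (2 ^ 2 ^ EC I)
      (thu I.1 (eI I) (2 ^ EQ I) (2 ^ 2 ^ Es I) (2 ^ 2 ^ EL I))) := choiceC_DE_thY hc hu
  obtain ⟨ES, hES, hES'⟩ := (DE.pow hY hD).exists_lt
  obtain ⟨EM, hEM, hEM'⟩ := (DE.mul (DE.twoTwoPow hES) hY).exists_lt
  have hw0 : SE w0I := by
    unfold w0I
    exact SE.add (SE.mul (SE.mul (SE.const 6) hD) (SE.add (SE.pow hD (by fun_prop)) (SE.const 3)))
      (SE.const 4)
  have hk : SE (fun I : Inst => 64 * (DI I * (2 * DI I ^ 3 + 6) + w0I I)) :=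
    SE.mul (SE.const 64) (SE.add (SE.mul hD (SE.add (SE.mul (SE.const 2)
      (SE.pow hD (by fun_prop))) (SE.const 6))) hw0)
  obtain ⟨Ek, hEk, hEk'⟩ := hk.exists_lt
  refine ⟨Es, EC, EL, ES, EM, Ek, hEs, hEC, hEL, hES, hEM, hEk, fun I => ⟨hEs' I, hEC' I,
    (Nat.le_add_right _ _).trans_lt (hEL' I), (Nat.le_add_left _ _).trans_lt (hEL' I),
    (hES' I).le, (hEM' I).le.trans ?_, (hEk' I).le⟩⟩
  exact Nat.pow_le_pow_right (by norm_num) (Nat.le_succ _)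

end Vale.Agent.P337
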