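import Mathlib
import Vale.Agent.Lib.P337.Cx.ChoiceB
import Vale.Agent.Lib.P337.Main.FormEq
import Vale.Agent.Lib.P337.Main.Bound

/-!
P337: residues and size of the decisive integer.
-/

namespace Vale.Agent.P337

open Vale.Agent.Lib.Common.PolyTime

open Classical in
/-- the decisive integer of a context -/
noncomputable def nI (Es EC EL ES EM Ek : Inst → ℕ) (c : Ctx) : ℤ :=
  if okC c then nInt (two_le_eI c.1) (sqs_totalDegree c.1) (2 ^ 2 ^ Es c.1)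
    (2 ^ 2 ^ EL c.1) (mkPrm Es EC EL ES EM Ek c 0).U else 0

/-- residues for large primes -/
theorem exists_E1 {Es EC EL ES EM Ek : Inst → ℕ} (h1 : PT Es) (h2 : PT EC) (h3 : PT EL)
    (h4 : PT ES) (h5 : PT EM) (h6 : PT Ek) :
    ∃ E1 : Ctx → ℕ, PT E1 ∧ ∀ (c : Ctx) (r : ℕ), r.Prime → 2 ^ E1 c < r → okC c →
      ((nI Es EC EL ES EM Ek c : ℤ) : ZMod r) = (mkPrm Es EC EL ES EM Ek c r).form := by
  have hI : PT (fun c : Ctx => c.1) := PT.fst PT.id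
  have hN : SE (fun c : Ctx => c.1.1) := SE.of_PT (PT.fst hI)
  have hePT : PT (fun c : Ctx => eI c.1) := PT.comp (f := eI) PT_eI hI
  have he : SE (fun c : Ctx => eI c.1) := SE.of_PT hePT
  have hD : SE (fun c : Ctx => DI c.1) := SE.of_FC (FC_DI.pre hI)
  have hk : SE (fun c : Ctx => Ek c.1) := SE.of_PT (PT.comp (f := Ek) h6 hI)
  have hM : SE (fun c : Ctx => 2 ^ EM c.1) := SE.twoPow (PT.comp (f := EM) h5 hI)
  have hK : SE (fun c : Ctx => 2 * eI c.1 * DI c.1 *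
      (DI c.1 * (DI c.1 * (2 * Ek c.1 * (2 ^ EM c.1 + 1))) + 1) +
      c.1.1 * (2 * eI c.1 - 1 - 1)) := by
    refine SE.add (((SE.mul (SE.const 2) he).mul hD).mul
      ((hD.mul (hD.mul (((SE.const 2).mul hk).mul (hM.add (SE.const 1))))).add (SE.const 1)))
      (hN.mul ?_)
    exact SE.mono ((SE.const 2).mul he) fun c => by omega
  have hd : SE (fun c : Ctx => 2 * eI c.1 - 1) :=
    SE.mono ((SE.const 2).mul he) fun c => by omega
  have hd' : SE (fun c : Ctx => 2 * eI c.1 - 1 - 1) :=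
    SE.mono ((SE.const 2).mul he) fun c => by omega
  have hall : SE (fun c : Ctx => (2 * eI c.1 * DI c.1 *
      (DI c.1 * (DI c.1 * (2 * Ek c.1 * (2 ^ EM c.1 + 1))) + 1) +
      c.1.1 * (2 * eI c.1 - 1 - 1)) +
      c.1.1 * (2 * eI c.1 * DI c.1 *
      (DI c.1 * (DI c.1 * (2 * Ek c.1 * (2 ^ EM c.1 + 1))) + 1) +
      c.1.1 * (2 * eI c.1 - 1 - 1)) * (2 * eI c.1 - 1 - 1) +
      (2 * eI c.1 - 1) * ((2 * eI c.1 * DI c.1 *
      (DI c.1 * (DI c.1 * (2 * Ek c.1 * (2 ^ EM c.1 + 1))) + 1) +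
      c.1.1 * (2 * eI c.1 - 1 - 1)) + 1) + DI c.1 * DI c.1 + DI c.1 + 2 + 1) :=
    (((((hK.add ((hN.mul hK).mul hd')).add (hd.mul (hK.add (SE.const 1)))).add
      (hD.mul hD)).add hD).add (SE.const 2)).add (SE.const 1)
  obtain ⟨E1, hE1, hlt⟩ := hall.exists_lt
  refine ⟨E1, hE1, fun c r hr hr1 hok => ?_⟩
  have hc := hlt c
  rw [nI, if_pos hok]
  have hlt' : (mkPrm Es EC EL ES EM Ek c r).K + (mkPrm Es EC EL ES EM Ek c r).N *
      (mkPrm Es EC EL ES EM Ek c r).K * ((mkPrm Es EC EL ES EM Ek c r).d - 1) +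
      (mkPrm Es EC EL ES EM Ek c r).d * ((mkPrm Es EC EL ES EM Ek c r).K + 1) +
      (mkPrm Es EC EL ES EM Ek c r).D * (mkPrm Es EC EL ES EM Ek c r).D +
      (mkPrm Es EC EL ES EM Ek c r).D + 2 < (mkPrm Es EC EL ES EM Ek c r).r - 1 := by
    have := hc.trans hr1
    exact Nat.lt_sub_of_add_lt this
  exact nInt_cast_eq_form (mkPrm Es EC EL ES EM Ek c r) (two_le_eI c.1) (sqs_totalDegree c.1) hr
    le_rfl hlt'

/-- size -/
theorem exists_E {Es EC EL ES EM Ek : Inst → ℕ} (h1 : PT Es) (h2 : PT EC) (h3 : PT EL)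
    (h4 : PT ES) (h5 : PT EM) (h6 : PT Ek) :
    ∃ E : Ctx → ℕ, PT E ∧ ∀ c : Ctx,
      |nI Es EC EL ES EM Ek c| ≤ ((2 ^ 2 ^ E c : ℕ) : ℤ) := by
  obtain ⟨EQ, hEQ, hQ⟩ := exists_EQ
  have hI : PT (fun c : Ctx => c.1) := PT.fst PT.id
  have hc : PT (fun c : Ctx => c.2) := PT.snd PT.id
  have hNPT : PT (fun c : Ctx => c.1.1) := PT.fst hI
  have hN : SE (fun c : Ctx => c.1.1) := SE.of_PT hNPT
  have hePT : PT (fun c : Ctx => eI c.1) := PT.comp (f := eI) PT_eI hI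
  have he : SE (fun c : Ctx => eI c.1) := SE.of_PT hePT
  have hD : SE (fun c : Ctx => DI c.1) := SE.of_FC (FC_DI.pre hI)
  have hk : SE (fun c : Ctx => Ek c.1) := SE.of_PT (PT.comp (f := Ek) h6 hI)
  have hM : SE (fun c : Ctx => 2 ^ EM c.1) := SE.twoPow (PT.comp (f := EM) h5 hI)
  have ha : SE (fun c : Ctx => aI c.1) := SE.of_FC (FC_aI.pre hI)
  have hZ : SE (fun c : Ctx => ZI c.1) := SE.of_FC (FC_ZI.pre hI)
  have hw : SE (fun c : Ctx => w0I c.1) := SE.of_FC (FC_w0I.pre hI)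
  have hTh : SE (fun c : Ctx => c.2.2.1.v) := SE.of_BNat (PT.fst (PT.snd hc))
  have hq : SE (fun c : Ctx => c.2.2.2.2.v) := SE.of_BNat (PT.snd (PT.snd (PT.snd hc)))
  have hs : DE (fun c : Ctx => 2 ^ 2 ^ Es c.1) := DE.twoTwoPow (PT.comp (f := Es) h1 hI)
  have hL : DE (fun c : Ctx => 2 ^ 2 ^ EL c.1) := DE.twoTwoPow (PT.comp (f := EL) h3 hI)
  have hC : DE (fun c : Ctx => 2 ^ 2 ^ EC c.1) := DE.twoTwoPow (PT.comp (f := EC) h2 hI)
  have hS : DE (fun c : Ctx => 2 ^ 2 ^ ES c.1) := DE.twoTwoPow (PT.comp (f := ES) h4 hI)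
  have hQ' : DE (fun c : Ctx => 2 ^ EQ c.1) := (SE.twoPow (PT.comp (f := EQ) hEQ hI)).toDE
  have hB : DE (fun c : Ctx => 2 ^ 2 ^ Es c.1 * 2 ^ (c.1.1 * (2 * eI c.1 - 1))) :=
    hs.mul (SE.twoPow (PT.mul hNPT (PT.sub (PT.mul (PT.const 2) hePT) (PT.const 1)))).toDE
  have h2e : SE (fun c : Ctx => 2 * eI c.1) := (SE.const 2).mul he
  have hthu : DE (fun c : Ctx => thu c.1.1 (eI c.1) (2 ^ EQ c.1) (2 ^ 2 ^ Es c.1)
      (2 ^ 2 ^ EL c.1)) := by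
    refine DE.mul ((((h2e.toDE.mul hL).mul hQ').add hN.toDE).add
      ((h2e.toDE.mul hN.toDE).mul hB) |>.add (DE.const 1)) ?_
    exact DE.pow ((((h2e.toDE.mul hQ').mul hL).add hB).add (DE.const 1)) h2e
  have hY : DE (fun c : Ctx => thY (DI c.1) (2 ^ 2 ^ EC c.1)
      (thu c.1.1 (eI c.1) (2 ^ EQ c.1) (2 ^ 2 ^ Es c.1) (2 ^ 2 ^ EL c.1))) :=
    (((hD.toDE.mul (((DE.const 2).mul hthu).add (DE.const 1))).pow hD).add hC).add hthu
  have hbig : DE (fun c : Ctx =>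
      ((DI c.1 * ZI c.1 * (w0I c.1 + c.2.2.2.2.v) * aI c.1 + c.2.2.1.v) *
      (3 * aI c.1 * (2 ^ 2 ^ ES c.1 * thY (DI c.1) (2 ^ 2 ^ EC c.1)
        (thu c.1.1 (eI c.1) (2 ^ EQ c.1) (2 ^ 2 ^ Es c.1) (2 ^ 2 ^ EL c.1)) +
          2 ^ 2 ^ EM c.1 + 1) ^ (2 * Ek c.1 * (2 ^ EM c.1 + 1)) + 1) ^
        (DI c.1 + 1)) ^ DI c.1) := by
    refine DE.pow (DE.mul ((((hD.mul hZ).mul (hw.add hq)).mul ha).add hTh).toDE ?_) hD
    refine DE.pow (DE.add (DE.mul ((SE.const 3).mul ha).toDE (DE.pow ?_ ?_)) (DE.const 1))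
      (hD.add (SE.const 1))
    · exact ((hS.mul hY).add (DE.twoTwoPow (PT.comp (f := EM) h5 hI))).add (DE.const 1)
    · exact ((SE.const 2).mul hk).mul (hM.add (SE.const 1))
  obtain ⟨E, hE, hb⟩ := hbig
  refine ⟨E, hE, fun c => ?_⟩
  by_cases hok : okC c
  · rw [nI, if_pos hok]
    refine (nInt_bound (two_le_eI c.1) (sqs_totalDegree c.1) (Q := 2 ^ EQ c.1) (hQ c.1) rfl
      hok.1 hok.2.1 ?_).trans ?_
    · exact lt_of_le_of_lt (Nat.zero_le _) hok.2.2.2.1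
    · exact_mod_cast hb c
  · rw [nI, if_neg hok, abs_zero]
    positivity

end Vale.Agent.P337
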