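import Mathlib
import Vale.Agent.Lib.P337.Cx.Choice

/-!
P337: the feasibility problem.
-/

namespace Vale.Agent.P337

open Vale.Agent.Lib.Common.PolyTime

/-- the feasibility problem -/
def Feas (I : Inst) : Prop :=
  ∃ x : Fin I.1 → ℝ, ∀ q ∈ I.2, MvPolynomial.eval x (toR (IPoly.toMv I.1 q)) = 0

end Vale.Agent.P337
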