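import Mathlib
import Vale.Agent.Lib.P337.Cx.FCzB
import Vale.Agent.Lib.P337.NT.Primes
import Vale.Agent.Lib.P337.NT.CrtSign

/-!
P337, complexity side: the sign of a doubly exponentially large integer whose residues are
computable in the counting hierarchy.
-/

namespace Vale.Agent.P337

open Vale.Agent.Lib.Common.PolyTime

variable {α : Type} [TEnc α]

theorem sgn_FC_pow {E : α → ℕ} (hE : PT E) {β : Type} [TEnc β] {φ : β → α} (hφ : PT φ) :
    FC (fun b => 2 ^ E (φ b)) :=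
  FC.pre (FC.twoPow hE) hφ

/-- membership in the set of primes, as a predicate in the hierarchy -/
theorem sgn_CHp_mem {E1 E2 : α → ℕ} (hE1 : PT E1) {β : Type} [TEnc β] {φ : β → α} (hφ : PT φ)
    {ρ : β → BNat} (hρ : PT ρ) (hE2 : PT E2) :
    CHp (fun b => (ρ b).v ∈ prs (E1 (φ b)) (E2 (φ b))) := by
  have h1 : CHp (fun b => (ρ b).v < 2 ^ E2 (φ b)) := CHp.lt (FC.of_PT hρ) (sgn_FC_pow hE2 hφ)
  have h2 : CHp (fun b => 2 ^ E1 (φ b) < (ρ b).v) := CHp.lt (sgn_FC_pow hE1 hφ) (FC.of_PT hρ)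
  have h3 : CHp (fun b => ((ρ b).v).Prime) := CHp.prime (FC.of_PT hρ)
  refine CHp.congr (h1.and (h2.and h3)) fun b => ?_
  rw [prs, Finset.mem_filter, Finset.mem_range]

/-- the product of the other primes, modulo `r` -/
theorem sgn_FCz_prod {E1 E2 : α → ℕ} (hE1 : PT E1) (hE2 : PT E2) :
    FCz (fun q : (α × BNat) × BNat => q.2.v)
      (fun q => ((∏ t ∈ (prs (E1 q.1.1) (E2 q.1.1)).erase q.2.v, t : ℕ) : ZMod q.2.v)) := by
  classical
  have hr : FC (fun q : (α × BNat) × BNat => q.2.v) := FC.of_PT (by fun_prop)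
  have hr' : FC (fun p : ((α × BNat) × BNat) × BNat => p.1.2.v) := FC.of_PT (by fun_prop)
  have hφ : PT (fun q : (α × BNat) × BNat => q.1.1) := by fun_prop
  have hφ' : PT (fun p : ((α × BNat) × BNat) × BNat => p.1.1.1) := by fun_prop
  have hc1 : CHp (fun p : ((α × BNat) × BNat) × BNat =>
      p.2.v ∈ prs (E1 p.1.1.1) (E2 p.1.1.1)) := sgn_CHp_mem hE1 hφ' (by fun_prop) hE2
  have hc2 : CHp (fun p : ((α × BNat) × BNat) × BNat => ¬ (p.2.v = p.1.2.v)) :=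
    CHp.not (CHp.eq (FC.of_PT (f := fun p : ((α × BNat) × BNat) × BNat => p.2) (by fun_prop))
      (FC.of_PT (f := fun p : ((α × BNat) × BNat) × BNat => p.1.2) (by fun_prop)))
  have hF : FCz (fun p : ((α × BNat) × BNat) × BNat => p.1.2.v)
      (fun p => if (p.2.v ∈ prs (E1 p.1.1.1) (E2 p.1.1.1) ∧ ¬ (p.2.v = p.1.2.v))
        then ((p.2.v : ℕ) : ZMod p.1.2.v) else ((1 : ℕ) : ZMod p.1.2.v)) := by
    refine FCz.congr (FCz.ite (hc1.and hc2)
      (FCz.cast hr' (FC.of_PT (f := fun p : ((α × BNat) × BNat) × BNat => p.2) (by fun_prop)))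
      (FCz.cast hr' (FC.const 1))) fun p _ => ?_
    by_cases h : p.2.v ∈ prs (E1 p.1.1.1) (E2 p.1.1.1) ∧ ¬ (p.2.v = p.1.2.v)
    · rw [if_pos h, if_pos h]
    · rw [if_neg h, if_neg h]
  have hP := FCz.prod_range (α := (α × BNat) × BNat) (r := fun q => q.2.v) hr
    (M := fun q => 2 ^ E2 q.1.1) (sgn_FC_pow hE2 hφ)
    (F := fun q t => if (t ∈ prs (E1 q.1.1) (E2 q.1.1) ∧ ¬ (t = q.2.v))
        then ((t : ℕ) : ZMod q.2.v) else ((1 : ℕ) : ZMod q.2.v)) hF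
  refine FCz.congr hP fun q _ => ?_
  rw [Nat.cast_prod]
  have hsub : (prs (E1 q.1.1) (E2 q.1.1)).erase q.2.v =
      (Finset.range (2 ^ E2 q.1.1)).filter
        (fun t => t ∈ prs (E1 q.1.1) (E2 q.1.1) ∧ ¬ (t = q.2.v)) := by
    ext t
    simp only [Finset.mem_erase, Finset.mem_filter, Finset.mem_range, prs]
    tauto
  rw [hsub, Finset.prod_filter]
  refine Finset.prod_congr rfl fun t _ => ?_
  rw [Nat.cast_one]

/-- the approximations are computable -/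
theorem FC_crtA {X : α → ℤ} {E1 E2 : α → ℕ} (hE1 : PT E1) (hE2 : PT E2)
    {F : ∀ _ : α, ∀ r : ℕ, ZMod r}
    (hF : FCz (fun p : α × BNat => p.2.v) (fun p => F p.1 p.2.v))
    (hX : ∀ a r, r ∈ prs (E1 a) (E2 a) → ((X a : ℤ) : ZMod r) = F a r) :
    FC (fun p : α × BNat => crtA (prs (E1 p.1) (E2 p.1)) (X p.1) (E2 p.1 + 10) p.2.v) := by
  classical
  have hr : FC (fun q : (α × BNat) × BNat => q.2.v) := FC.of_PT (by fun_prop)
  have hφ : PT (fun q : (α × BNat) × BNat => q.1.1) := by fun_prop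
  have hφ1 : PT (fun q : α × BNat => q.1) := by fun_prop
  have hF' : FCz (fun q : (α × BNat) × BNat => q.2.v) (fun q => F q.1.1 q.2.v) :=
    FCz.pre hF (φ := fun q : (α × BNat) × BNat => (q.1.1, q.2)) (by fun_prop)
  have h2 : FCz (fun q : (α × BNat) × BNat => q.2.v)
      (fun q => (((2 : ℕ) : ZMod q.2.v)) ^ q.1.2.v) :=
    FCz.pow hr (FCz.cast hr (FC.const 2)) (FC.of_PT (by fun_prop))
  have hT : FCz (fun q : (α × BNat) × BNat => q.2.v)
      (fun q => F q.1.1 q.2.v *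
        ((∏ t ∈ (prs (E1 q.1.1) (E2 q.1.1)).erase q.2.v, t : ℕ) : ZMod q.2.v)⁻¹ *
        (((2 : ℕ) : ZMod q.2.v)) ^ q.1.2.v) :=
    FCz.mul hr (FCz.mul hr hF' (FCz.inv hr (sgn_FCz_prod hE1 hE2))) h2
  have hTv := FCz.val hT
  have hpw : FC (fun q : (α × BNat) × BNat => 2 ^ (E2 q.1.1 + 10)) :=
    sgn_FC_pow (E := fun a => E2 a + 10) (by fun_prop) hφ
  have hpw1 : FC (fun q : α × BNat => 2 ^ (E2 q.1 + 10)) :=
    sgn_FC_pow (E := fun a => E2 a + 10) (by fun_prop) hφ1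
  have hmem : CHp (fun q : (α × BNat) × BNat => q.2.v ∈ prs (E1 q.1.1) (E2 q.1.1)) :=
    sgn_CHp_mem hE1 hφ (by fun_prop) hE2
  have hterm0 := FC.ite hmem (FC.div (FC.mul hpw hTv) hr) (FC.const 0)
  have hterm : FC (fun q : (α × BNat) × BNat => if q.2.v ∈ prs (E1 q.1.1) (E2 q.1.1) then
      2 ^ (E2 q.1.1 + 10) * (if (q.2.v).Prime then (F q.1.1 q.2.v *
        ((∏ t' ∈ (prs (E1 q.1.1) (E2 q.1.1)).erase q.2.v, t' : ℕ) : ZMod q.2.v)⁻¹ *
        (((2 : ℕ) : ZMod q.2.v)) ^ q.1.2.v).val else 0) / q.2.v else 0) := by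
    refine FC.congr hterm0 fun q => ?_
    by_cases h : q.2.v ∈ prs (E1 q.1.1) (E2 q.1.1)
    · rw [if_pos h, if_pos h]
    · rw [if_neg h, if_neg h]
  have hsum := FC.sum (α := α × BNat) (M := fun p => 2 ^ E2 p.1) (sgn_FC_pow hE2 hφ1)
    (F := fun p t => if t ∈ prs (E1 p.1) (E2 p.1) then 2 ^ (E2 p.1 + 10) *
      (if t.Prime then (F p.1 t * ((∏ t' ∈ (prs (E1 p.1) (E2 p.1)).erase t, t' : ℕ) : ZMod t)⁻¹ *
        (((2 : ℕ) : ZMod t)) ^ p.2.v).val else 0) / t else 0) hterm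
  refine FC.congr (FC.mod hsum hpw1) fun p => ?_
  rw [crtA]
  congr 1
  have hsub : prs (E1 p.1) (E2 p.1) = (Finset.range (2 ^ E2 p.1)).filter
      (fun t => t ∈ prs (E1 p.1) (E2 p.1)) := by
    ext t
    simp only [Finset.mem_filter, Finset.mem_range, prs]
    tauto
  conv_rhs => rw [hsub]
  rw [Finset.sum_filter]
  refine Finset.sum_congr rfl fun t _ => ?_
  by_cases ht : t ∈ prs (E1 p.1) (E2 p.1)
  · rw [if_pos ht, if_pos ht]
    have htp : t.Prime := (Finset.mem_filter.1 ht).2.2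
    rw [if_pos htp, ← hsub, crtT, hX p.1 t ht, Nat.cast_ofNat]
  · rw [if_neg ht, if_neg ht]

theorem CHp.neg_of_residues {X : α → ℤ} {E1 E2 : α → ℕ} (hE1 : PT E1) (hE2 : PT E2)
    {F : ∀ _ : α, ∀ r : ℕ, ZMod r}
    (hF : FCz (fun p : α × BNat => p.2.v) (fun p => F p.1 p.2.v))
    (hX : ∀ a r, r ∈ prs (E1 a) (E2 a) → ((X a : ℤ) : ZMod r) = F a r)
    (hbig : ∀ a, 16 * |X a| < (∏ r ∈ prs (E1 a) (E2 a), r : ℕ)) : CHp (fun a => X a < 0) := by
  have hA := FC_crtA hE1 hE2 hF hX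
  have hA2 : FC (fun q : (α × BNat) × BNat =>
      crtA (prs (E1 q.1.1) (E2 q.1.1)) (X q.1.1) (E2 q.1.1 + 10) q.2.v) :=
    FC.pre hA (φ := fun q : (α × BNat) × BNat => (q.1.1, q.2)) (by fun_prop)
  have hφ : PT (fun q : (α × BNat) × BNat => q.1.1) := by fun_prop
  have hφ1 : PT (fun q : α × BNat => q.1) := by fun_prop
  have hpw : FC (fun q : (α × BNat) × BNat => 2 ^ (E2 q.1.1 + 10)) :=
    sgn_FC_pow (E := fun a => E2 a + 10) (by fun_prop) hφ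
  have hpw1 : FC (fun q : α × BNat => 2 ^ (E2 q.1 + 10)) :=
    sgn_FC_pow (E := fun a => E2 a + 10) (by fun_prop) hφ1
  have hin : CHp (fun q : (α × BNat) × BNat =>
      8 * crtA (prs (E1 q.1.1) (E2 q.1.1)) (X q.1.1) (E2 q.1.1 + 10) q.2.v <
        2 ^ (E2 q.1.1 + 10) ∨ 7 * 2 ^ (E2 q.1.1 + 10) ≤
      8 * crtA (prs (E1 q.1.1) (E2 q.1.1)) (X q.1.1) (E2 q.1.1 + 10) q.2.v) :=
    CHp.or (CHp.lt (FC.mul (FC.const 8) hA2) hpw)
      (CHp.le (FC.mul (FC.const 7) hpw) (FC.mul (FC.const 8) hA2))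
  have hall := CHp.forall_lt (α := α × BNat) (M := fun p => p.2.v) (FC.of_PT (by fun_prop))
    (B := fun p i => 8 * crtA (prs (E1 p.1) (E2 p.1)) (X p.1) (E2 p.1 + 10) i <
        2 ^ (E2 p.1 + 10) ∨ 7 * 2 ^ (E2 p.1 + 10) ≤
      8 * crtA (prs (E1 p.1) (E2 p.1)) (X p.1) (E2 p.1 + 10) i) hin
  have hB := CHp.and hall (CHp.and (CHp.le hpw1 (FC.mul (FC.const 2) hA))
    (CHp.lt (FC.mul (FC.const 8) hA) (FC.mul (FC.const 7) hpw1)))
  have hM : FC (fun a => E2 a * 2 ^ E2 a + 1) :=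
    FC.add (FC.mul (FC.of_PTnat hE2) (FC.twoPow hE2)) (FC.const 1)
  have hex := CHp.exists_lt hM (B := fun a j =>
    (∀ i < j, 8 * crtA (prs (E1 a) (E2 a)) (X a) (E2 a + 10) i <
        2 ^ (E2 a + 10) ∨ 7 * 2 ^ (E2 a + 10) ≤
      8 * crtA (prs (E1 a) (E2 a)) (X a) (E2 a + 10) i) ∧
    2 ^ (E2 a + 10) ≤ 2 * crtA (prs (E1 a) (E2 a)) (X a) (E2 a + 10) j ∧
    8 * crtA (prs (E1 a) (E2 a)) (X a) (E2 a + 10) j < 7 * 2 ^ (E2 a + 10)) hB
  refine CHp.congr hex fun a => ?_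
  have hcard : (prs (E1 a) (E2 a)).card ≤ 2 ^ E2 a := by
    refine (Finset.card_filter_le _ _).trans ?_
    rw [Finset.card_range]
  have hs : 1024 * (prs (E1 a) (E2 a)).card ≤ 2 ^ (E2 a + 10) := by
    rw [pow_add]
    have : (2 : ℕ) ^ 10 = 1024 := by norm_num
    rw [this, mul_comm]
    exact Nat.mul_le_mul_right _ hcard
  exact (crt_sign (prs (E1 a) (E2 a)) (fun r hr => (Finset.mem_filter.1 hr).2.2) (X a)
    (E2 a + 10) (E2 a * 2 ^ E2 a) hs (hbig a) (prod_prs_le _ _)).symm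

end Vale.Agent.P337
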