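import Mathlib
import Vale.Agent.Lib.P337.Cx.FeasDef
import Vale.Agent.Lib.P337.Cx.ChoiceC
import Vale.Agent.Lib.P337.Cx.ChoiceD
import Vale.Agent.Lib.P337.Main.Sound
import Vale.Agent.Lib.P337.Main.Complete
import Vale.Agent.Lib.P337.Cx.Sign

/-!
P337: feasibility of systems of polynomial equations is in the counting hierarchy.
-/

namespace Vale.Agent.P337

open Vale.Agent.Lib.Common.PolyTime

/-- the sign of the decisive integer is decidable in the counting hierarchy -/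
theorem CHp_nI_neg {Es EC EL ES EM Ek : Inst → ℕ} (h1 : PT Es) (h2 : PT EC) (h3 : PT EL)
    (h4 : PT ES) (h5 : PT EM) (h6 : PT Ek) :
    CHp (fun c : Ctx => nI Es EC EL ES EM Ek c < 0) := by
  classical
  obtain ⟨E1, hE1, hres⟩ := exists_E1 h1 h2 h3 h4 h5 h6
  obtain ⟨E, hE, hsz⟩ := exists_E h1 h2 h3 h4 h5 h6
  refine CHp.neg_of_residues (E1 := E1) (E2 := fun c => E c + E1 c + 20) hE1 (by fun_prop)
    (F := fun c r => if okC c then (mkPrm Es EC EL ES EM Ek c r).form else 0) ?_ ?_ ?_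
  · have hform := FCz_form (CPrm_mkPrm h1 h2 h3 h4 h5 h6)
    have hr : FC (fun p : Ctx × BNat => p.2.v) := FC.of_PT (PT.snd PT.id)
    have hok : CHp (fun p : Ctx × BNat => okC p.1) := CHp_okC.pre (PT.fst PT.id)
    have hzero : FCz (fun p : Ctx × BNat => p.2.v) (fun _ => 0) :=
      (FCz.cast hr (FC.const 0)).congr (fun a _ => by simp)
    exact FCz.ite hok hform hzero
  · intro c r hr
    simp only [prs, Finset.mem_filter, Finset.mem_range] at hr
    obtain ⟨-, hr1, hr2⟩ := hr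
    by_cases hok : okC c
    · simp only [hok]
      exact hres c r hr2 hr1 hok
    · simp [nI, hok]
  · intro c
    have h := prod_prs_ge (E c) (E1 c)
    have h' := hsz c
    have h0 : (0 : ℤ) < ((2 ^ 2 ^ E c : ℕ) : ℤ) := by positivity
    have h2 : ((2 ^ 2 ^ E c * 32 : ℕ) : ℤ) ≤ ((∏ r ∈ prs (E1 c) (E c + E1 c + 20), r : ℕ) : ℤ) := by
      exact_mod_cast h
    refine lt_of_lt_of_le ?_ h2
    rw [Nat.cast_mul]
    push_cast at h0 h' ⊢
    linarith

theorem CHp_Feas : CHp Feas := by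
  classical
  obtain ⟨EQ, hEQ, hQ⟩ := exists_EQ
  obtain ⟨Es, EC, EL, ES, EM, Ek, h1, h2, h3, h4, h5, h6, hch⟩ := exists_choice EQ hEQ
  have hneg := CHp_nI_neg h1 h2 h3 h4 h5 h6
  have key : ∀ I : Inst, Feas I ↔ ∃ a' < 2 * aI I + 1, ∃ Th < ZI I * w0I I,
      ∃ rho < 2 * DI I ^ 3 + 7, ∃ q < 2 * DI I ^ 3 + 7,
        (okC (I, ((⟨a'⟩ : BNat), (⟨Th⟩ : BNat), (⟨rho⟩ : BNat), (⟨q⟩ : BNat))) ∧
          nI Es EC EL ES EM Ek
            (I, ((⟨a'⟩ : BNat), (⟨Th⟩ : BNat), (⟨rho⟩ : BNat), (⟨q⟩ : BNat))) < 0) := by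
    intro I
    obtain ⟨hs, hC, hL1, hL2, hS, hM, hk⟩ := hch I
    have hZ : (∃ x : Fin I.1 → ℝ, MvPolynomial.eval x (toR (sqs I.1 I.2)) = 0) ↔ Feas I :=
      exists_congr fun x => sqs_eq_zero_iff I x
    have haI : 0 < aI I := by
      unfold aI w0I
      positivity
    constructor
    · intro hF
      obtain ⟨a', Th, rho, q, ha1, ha2, hTh, hrq, hq, hn⟩ :=
        nInt_complete (two_le_eI I) (sqs_totalDegree I) (sqs_nonneg I) (Q := 2 ^ EQ I)
          (hQ I) (D := DI I) (M := 2 ^ EM I) (kap := Ek I) (a := aI I) (w0 := w0I I)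
          (Z := ZI I) rfl hs hC hL1 hS hM rfl rfl hk le_rfl (hZ.2 hF)
      have hok : okC (I, ((⟨a'⟩ : BNat), (⟨Th⟩ : BNat), (⟨rho⟩ : BNat), (⟨q⟩ : BNat))) :=
        ⟨ha1, ha2, hTh, hrq, hq⟩
      refine ⟨a', by omega, Th, by omega, rho, by omega, q, by omega, hok, ?_⟩
      rw [nI, if_pos hok]
      exact hn
    · rintro ⟨a', -, Th, -, rho, -, q, -, hok, hn⟩
      rw [nI, if_pos hok] at hn
      obtain ⟨ha1, ha2, hTh, hrq, hq⟩ := hok
      exact hZ.1 (nInt_sound (two_le_eI I) (sqs_totalDegree I) (sqs_nonneg I) (hQ I) rfl hC hL2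
        haI ha1 ha2 hTh hn)
  refine CHp.congr ?_ fun I => (key I).symm
  have hctx : PT (fun p : (((Inst × BNat) × BNat) × BNat) × BNat =>
      ((p.1.1.1.1, (p.1.1.1.2, p.1.1.2, p.1.2, p.2)) : Ctx)) := by fun_prop
  have hB : CHp (fun p : (((Inst × BNat) × BNat) × BNat) × BNat =>
      okC ((p.1.1.1.1, (p.1.1.1.2, p.1.1.2, p.1.2, p.2)) : Ctx) ∧
        nI Es EC EL ES EM Ek ((p.1.1.1.1, (p.1.1.1.2, p.1.1.2, p.1.2, p.2)) : Ctx) < 0) :=
    (CHp_okC.pre hctx).and (hneg.pre hctx)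
  have hcub : FC (fun I : Inst => 2 * DI I ^ 3 + 7) :=
    ((FC.const 2).mul (FC_DI.powUnary (PT.const 3))).add (FC.const 7)
  refine CHp.exists_lt (((FC.const 2).mul FC_aI).add (FC.const 1)) ?_
  refine CHp.exists_lt (α := Inst × BNat) ((FC_ZI.mul FC_w0I).pre (PT.fst PT.id)) ?_
  refine CHp.exists_lt (α := (Inst × BNat) × BNat) (hcub.pre (PT.fst (PT.fst PT.id))) ?_
  refine CHp.exists_lt (α := ((Inst × BNat) × BNat) × BNat)
    (hcub.pre (PT.fst (PT.fst (PT.fst PT.id)))) ?_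
  exact hB

end Vale.Agent.P337
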